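import Vale.Agent.P275CT.Ker

/-!
P275 (helper54): the Cauchy transform, block CT.
-/

set_option linter.all false

open scoped Topology ComplexConjugate ContDiff Real
open Filter Set Complex Metric MeasureTheory
open Vale.Agent.P281Z.Hm Vale.Agent.P275NA

noncomputable section

namespace Vale.Agent.P275CT

theorem ns_eq {F : Type} [NormedAddCommGroup F] [i : NormedSpace ℝ F] [NormedSpace ℂ F]
    [IsScalarTower ℝ ℂ F] : i = NormedSpace.complexToReal := by
  have e : i.toModule = (NormedSpace.complexToReal (E := F)).toModule :=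
    Module.ext' _ _ fun r x => by
      have h1 : r • x = (r : ℂ) • x := rsmul r x
      exact h1
  obtain @⟨m, hm⟩ := i
  simp only at e
  subst e
  rfl

theorem pomp0 {F : Type} [NormedAddCommGroup F] [NormedSpace ℂ F] [CompleteSpace F] {g : ℂ → F}
    (hg : ContDiff ℝ 1 g) (hc : HasCompactSupport g) (z : ℂ) :
    ∫ w : ℂ, w⁻¹ • db g (z + w) = -((π : ℂ) • g z) := by
  have e : db g = P030.H580.dbar g := by
    funext x
    simp [db, wb, P030.H580.dbar]
  have h := P030.H580.pompeiu_aux g hg 0 (by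
    simpa using hc.is_zero_at_infty) (e ▸ db_cs hc) z
  rw [e, h, zero_sub, smul_neg]

variable {F : Type} [NormedAddCommGroup F] [NormedSpace ℝ F] [NormedSpace ℂ F]
  [IsScalarTower ℝ ℂ F]

theorem pi_ne : (π : ℂ) ≠ 0 := by exact_mod_cast Real.pi_ne_zero

theorem cT_db [CompleteSpace F] {g : ℂ → F} (hg : ContDiff ℝ 1 g) (hc : HasCompactSupport g) :
    cT (db g) = g := by
  funext z
  have h : ∫ w : ℂ, w⁻¹ • db g (z + w) = -((π : ℂ) • g z) := by
    obtain rfl := ns_eq (F := F)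
    exact pomp0 hg hc z
  have e : ∫ w : ℂ, w⁻¹ • db g (z - w) = -∫ w : ℂ, w⁻¹ • db g (z + w) := by
    rw [← integral_neg, ← integral_neg_eq_self (fun w : ℂ => w⁻¹ • db g (z - w))]
    simp only [inv_neg, neg_smul, sub_neg_eq_add]
  rw [cT, e, h, neg_neg, smul_smul, inv_mul_cancel₀ pi_ne, one_smul]

theorem cT_cont {g : ℂ → F} (hg : Continuous g) (hc : HasCompactSupport g) : Continuous (cT g) :=
  (kn_inv.cont hg hc).const_smul _

theorem cB_cont {g : ℂ → F} (hg : Continuous g) (hc : HasCompactSupport g) : Continuous (cB g) :=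
  (kn_conj.cont hg hc).const_smul _

theorem cd_csmul {E : Type} [NormedAddCommGroup E] [NormedSpace ℝ E] {g : E → F} {n : WithTop ℕ∞}
    (c : ℂ) (hg : ContDiff ℝ n g) : ContDiff ℝ n fun x => c • g x :=
  ((c • ContinuousLinearMap.id ℂ F).restrictScalars ℝ).contDiff.comp hg

theorem cT_cd {g : ℂ → F} {n : ℕ∞} (hg : ContDiff ℝ n g) (hc : HasCompactSupport g) :
    ContDiff ℝ n (cT g) := cd_csmul _ (kn_inv.cd hg hc)

theorem cB_cd {g : ℂ → F} {n : ℕ∞} (hg : ContDiff ℝ n g) (hc : HasCompactSupport g) :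
    ContDiff ℝ n (cB g) := cd_csmul _ (kn_conj.cd hg hc)

theorem Kn.df1 {k : ℂ → ℂ} (hk : Kn k) {g : ℂ → F} (hg : ContDiff ℝ 1 g)
    (hc : HasCompactSupport g) (z : ℂ) : DifferentiableAt ℝ (cK k g) z :=
  (hk.cd (n := 1) hg hc).differentiable (by norm_num) z

theorem db_cT_comm {g : ℂ → F} (hg : ContDiff ℝ 1 g) (hc : HasCompactSupport g) :
    db (cT g) = cT (db g) := by
  funext z
  rw [cT_eq, cT_eq, ← kn_inv.db hg hc]
  exact wb_const_smul _ (kn_inv.df1 hg hc z) 1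

theorem dz_cT {g : ℂ → F} (hg : ContDiff ℝ 1 g) (hc : HasCompactSupport g) :
    dz (cT g) = cT (dz g) := by
  funext z
  rw [cT_eq, cT_eq, ← kn_inv.dz hg hc]
  exact wd_const_smul _ (kn_inv.df1 hg hc z) 1

theorem db_cB {g : ℂ → F} (hg : ContDiff ℝ 1 g) (hc : HasCompactSupport g) :
    db (cB g) = cB (db g) := by
  funext z
  rw [cB_eq, cB_eq, ← kn_conj.db hg hc]
  exact wb_const_smul _ (kn_conj.df1 hg hc z) 1

theorem dz_cB_comm {g : ℂ → F} (hg : ContDiff ℝ 1 g) (hc : HasCompactSupport g) :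
    dz (cB g) = cB (dz g) := by
  funext z
  rw [cB_eq, cB_eq, ← kn_conj.dz hg hc]
  exact wd_const_smul _ (kn_conj.df1 hg hc z) 1

theorem db_cT [CompleteSpace F] {g : ℂ → F} (hg : ContDiff ℝ 1 g) (hc : HasCompactSupport g) :
    db (cT g) = g := by rw [db_cT_comm hg hc, cT_db hg hc]

theorem cB_cT (g : ℂ → F) (z : ℂ) : cB g z = cT (fun x => g (conj x)) (conj z) := by
  rw [cB, cT]
  refine congrArg _ ?_
  rw [← (conjLIE.measurePreserving).integral_comp conjLIE.toHomeomorph.measurableEmbedding]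
  simp

theorem cd_cj {g : ℂ → F} {n : WithTop ℕ∞} (hg : ContDiff ℝ n g) :
    ContDiff ℝ n fun x => g (conj x) := hg.comp conjCLE.contDiff

theorem cs_cj {g : ℂ → F} (hc : HasCompactSupport g) : HasCompactSupport fun x => g (conj x) :=
  hc.comp_homeomorph conjLIE.toHomeomorph

theorem fd_cj {g : ℂ → F} {z : ℂ} (hg : DifferentiableAt ℝ g (conj z)) (v : ℂ) :
    fderiv ℝ (fun x => g (conj x)) z v = fderiv ℝ g (conj z) (conj v) := by
  have := (hg.hasFDerivAt.comp z (conjCLE : ℂ →L[ℝ] ℂ).hasFDerivAt).fderiv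
  exact congrArg (fun A => A v) this

theorem db_cj {g : ℂ → F} {z : ℂ} (hg : DifferentiableAt ℝ g (conj z)) :
    db (fun x => g (conj x)) z = dz g (conj z) := by
  simp only [db, dz, wb, wd, fd_cj hg, smul_eq_mul, mul_one, map_one, conj_I, map_neg, smul_neg,
    sub_eq_add_neg]

theorem dz_cj {g : ℂ → F} {z : ℂ} (hg : DifferentiableAt ℝ g (conj z)) :
    dz (fun x => g (conj x)) z = db g (conj z) := by
  simp only [db, dz, wb, wd, fd_cj hg, smul_eq_mul, mul_one, map_one, conj_I, map_neg, smul_neg,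
    sub_neg_eq_add]

theorem cB_dz [CompleteSpace F] {g : ℂ → F} (hg : ContDiff ℝ 1 g) (hc : HasCompactSupport g) :
    cB (dz g) = g := by
  funext z
  have e : (fun x => dz g (conj x)) = db fun x => g (conj x) :=
    funext fun x => (db_cj (hg.differentiable (by norm_num) _)).symm
  rw [cB_cT, e, cT_db (cd_cj hg) (cs_cj hc)]
  simp only [conj_conj]

theorem dz_cB [CompleteSpace F] {g : ℂ → F} (hg : ContDiff ℝ 1 g) (hc : HasCompactSupport g) :
    dz (cB g) = g := by rw [dz_cB_comm hg hc, cB_dz hg hc]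

theorem npi : ‖((π : ℂ)⁻¹)‖ = π⁻¹ := by
  rw [norm_inv, norm_real, Real.norm_of_nonneg Real.pi_pos.le]

theorem Kn.bound' {k : ℂ → ℂ} (hk : Kn k) {g : ℂ → F} {R M : ℝ} (hR : 0 < R)
    (hs : ∀ z, R < ‖z‖ → g z = 0) (hM : ∀ z, ‖g z‖ ≤ M) (z : ℂ) :
    ‖((π : ℂ)⁻¹) • cK k g z‖ ≤ 3 * R * M := by
  have := Real.pi_pos
  rw [norm_smul, npi]
  calc _ ≤ π⁻¹ * (3 * π * R * M) := by gcongr; exact hk.bound hR hs hM z
    _ = _ := by field_simp

theorem Kn.holder' {k : ℂ → ℂ} (hk : Kn k) {g : ℂ → F} (hg : Continuous g) {R M : ℝ} (hR : 0 < R)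
    (hs : ∀ z, R < ‖z‖ → g z = 0) (hM : ∀ z, ‖g z‖ ≤ M) (z z' : ℂ) :
    ‖((π : ℂ)⁻¹) • cK k g z - ((π : ℂ)⁻¹) • cK k g z'‖ ≤ π⁻¹ * hC R * M * √‖z - z'‖ := by
  have := Real.pi_pos
  rw [← smul_sub, norm_smul, npi]
  calc _ ≤ π⁻¹ * (hC R * M * √‖z - z'‖) := by gcongr; exact hk.holder hg hR hs hM z z'
    _ = _ := by ring

theorem cT_bound {g : ℂ → F} {R M : ℝ} (hR : 0 < R) (hs : ∀ z, R < ‖z‖ → g z = 0)
    (hM : ∀ z, ‖g z‖ ≤ M) (z : ℂ) : ‖cT g z‖ ≤ 3 * R * M := kn_inv.bound' hR hs hM z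

theorem cB_bound {g : ℂ → F} {R M : ℝ} (hR : 0 < R) (hs : ∀ z, R < ‖z‖ → g z = 0)
    (hM : ∀ z, ‖g z‖ ≤ M) (z : ℂ) : ‖cB g z‖ ≤ 3 * R * M := kn_conj.bound' hR hs hM z

theorem cT_holder {g : ℂ → F} (hg : Continuous g) {R M : ℝ} (hR : 0 < R)
    (hs : ∀ z, R < ‖z‖ → g z = 0) (hM : ∀ z, ‖g z‖ ≤ M) (z z' : ℂ) :
    ‖cT g z - cT g z'‖ ≤ π⁻¹ * hC R * M * √‖z - z'‖ := kn_inv.holder' hg hR hs hM z z'

theorem cT_add {f g : ℂ → F} (hf : Continuous f) (cf : HasCompactSupport f) (hg : Continuous g)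
    (cg : HasCompactSupport g) (z : ℂ) : cT (fun x => f x + g x) z = cT f z + cT g z := by
  simp only [cT_eq]
  rw [kn_inv.add hf cf hg cg, smul_add]

theorem cT_sub {f g : ℂ → F} (hf : Continuous f) (cf : HasCompactSupport f) (hg : Continuous g)
    (cg : HasCompactSupport g) (z : ℂ) : cT (fun x => f x - g x) z = cT f z - cT g z := by
  simp only [cT_eq]
  rw [kn_inv.sub hf cf hg cg, smul_sub]

theorem cB_add {f g : ℂ → F} (hf : Continuous f) (cf : HasCompactSupport f) (hg : Continuous g)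
    (cg : HasCompactSupport g) (z : ℂ) : cB (fun x => f x + g x) z = cB f z + cB g z := by
  simp only [cB_eq]
  rw [kn_conj.add hf cf hg cg, smul_add]

theorem cB_sub {f g : ℂ → F} (hf : Continuous f) (cf : HasCompactSupport f) (hg : Continuous g)
    (cg : HasCompactSupport g) (z : ℂ) : cB (fun x => f x - g x) z = cB f z - cB g z := by
  simp only [cB_eq]
  rw [kn_conj.sub hf cf hg cg, smul_sub]

theorem Kn.adj' [CompleteSpace F] {k : ℂ → ℂ} (hk : Kn k) {a : ℂ → ℂ} {g : ℂ → F}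
    (ha : Continuous a) (ca : HasCompactSupport a) (hg : Continuous g) (cg : HasCompactSupport g) :
    ∫ z, a z • ((π : ℂ)⁻¹) • cK k g z = -∫ ξ, (((π : ℂ)⁻¹) • cK k a ξ) • g ξ := by
  have e1 : ∀ z, a z • ((π : ℂ)⁻¹) • cK k g z = ((π : ℂ)⁻¹) • a z • cK k g z :=
    fun z => smul_comm _ _ _
  simp only [e1, smul_assoc]
  rw [integral_smul, integral_smul, hk.adj ha ca hg cg, smul_neg]

/-- the Cauchy transform is antisymmetric -/
theorem cT_adj [CompleteSpace F] {a : ℂ → ℂ} {g : ℂ → F} (ha : Continuous a)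
    (ca : HasCompactSupport a) (hg : Continuous g) (cg : HasCompactSupport g) :
    ∫ z, a z • cT g z = -∫ ξ, cT a ξ • g ξ := kn_inv.adj' ha ca hg cg

theorem cB_adj [CompleteSpace F] {a : ℂ → ℂ} {g : ℂ → F} (ha : Continuous a)
    (ca : HasCompactSupport a) (hg : Continuous g) (cg : HasCompactSupport g) :
    ∫ z, a z • cB g z = -∫ ξ, cB a ξ • g ξ := kn_conj.adj' ha ca hg cg

theorem wk_cT [CompleteSpace F] {g : ℂ → F} (hg : Continuous g) (cg : HasCompactSupport g)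
    (U : Set ℂ) : Wk U (cT g) g := fun φ hφ cφ _ => by
  rw [cT_adj (db_cont hφ) (db_cs cφ) hg cg, cT_db hφ cφ]

theorem ct : CT := by
  intro F _ _ _ _ _ R hR
  have hpi := Real.pi_pos
  refine ⟨π⁻¹ * hC R, mul_nonneg (by positivity) (hC_nonneg hR), fun g hg hs => ?_⟩
  have hc := cs_of hs
  refine ⟨fun M hM z z' => ?_, wk_cT hg hc _, fun k hk => ⟨cT_cd hk hc, cB_cd hk hc⟩,
    fun h1 => ⟨db_cT h1 hc, cT_db h1 hc, dz_cT h1 hc, dz_cB h1 hc, cB_dz h1 hc, db_cB h1 hc⟩⟩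
  have hM0 : 0 ≤ M := (norm_nonneg _).trans (hM 0)
  have h36 : 3 * R * M ≤ 6 * R * M := by gcongr; norm_num
  exact ⟨(cT_bound hR hs hM z).trans h36, (cB_bound hR hs hM z).trans h36,
    cT_holder hg hR hs hM z z', kn_conj.holder' hg hR hs hM z z'⟩

end Vale.Agent.P275CT
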