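import Vale.Agent.P275CT.Pot

/-!
P275 (helper54): regularity of metrics, block REG and its approximate form.
-/

set_option linter.all false

open scoped Matrix.Norms.Operator Topology ComplexOrder ComplexConjugate ContDiff Real
open Filter Set Matrix Complex Metric MeasureTheory
open Vale.Agent.P281Z.Hm Vale.Agent.P275NA

noncomputable section

namespace Vale.Agent.P275CT

/-- composition of locally uniform limits with a map which is continuous along the limit -/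
theorem tlu_comp {X Y Z ι : Type} [TopologicalSpace X] [UniformSpace Y] [UniformSpace Z]
    {l : Filter ι} {U : Set X} {f : ι → X → Y} {g : X → Y} {Φ : Y → Z}
    (t : TendstoLocallyUniformlyOn f g l U) (hg : ContinuousOn g U)
    (hΦ : ∀ x ∈ U, ContinuousAt Φ (g x)) :
    TendstoLocallyUniformlyOn (fun j x => Φ (f j x)) (fun x => Φ (g x)) l U := by
  rw [tendstoLocallyUniformlyOn_iff_forall_tendsto] at t ⊢
  intro x hx
  have h1 : Tendsto (fun y : ι × X => g y.2) (l ×ˢ 𝓝[U] x) (𝓝 (g x)) := (hg x hx).tendsto.comp tendsto_snd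
  have h2 := h1.congr_uniformity (t x hx)
  exact (((hΦ x hx).tendsto.comp h1).prodMk_nhds ((hΦ x hx).tendsto.comp h2)).mono_right
    (nhds_le_uniformity _)

variable {n : Type} [Fintype n] [DecidableEq n]

theorem det_ne {h : Mx n} (hp : h.PosDef) : h.det ≠ 0 := hp.det_pos.ne'

theorem cda_ct {E : Type} [NormedAddCommGroup E] [NormedSpace ℝ E] {f : E → Mx n} {z : E}
    {k : ℕ∞} (hf : ContDiffAt ℝ k f z) : ContDiffAt ℝ k (fun x => (f x)ᴴ) z :=
  (an_ct (f := id) analyticAt_id).contDiffAt.comp z hf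

theorem cda_inv {E : Type} [NormedAddCommGroup E] [NormedSpace ℝ E] {f : E → Mx n} {z : E}
    {k : ℕ∞} (hf : ContDiffAt ℝ k f z) (h0 : (f z).det ≠ 0) :
    ContDiffAt ℝ k (fun x => (f x)⁻¹) z :=
  (an_inv (𝕜 := ℝ) (f := id) analyticAt_id h0).contDiffAt.comp z hf

theorem db_herm {h : ℂ → Mx n} {z : ℂ} (hd : DifferentiableAt ℝ h z)
    (hp : ∀ᶠ x in 𝓝 z, (h x).PosDef) : db h z = (dz h z)ᴴ := by
  have e : h =ᶠ[𝓝 z] fun x => (h x)ᴴ := hp.mono fun x hx => hx.isHermitian.eq.symm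
  exact (wb_congr e 1).trans (wb_ct hd 1)

theorem dz_cn {h : ℂ → Mx n} {z : ℂ} (hp : (h z).PosDef) : dz h z = h z * cn h z := by
  rw [cn, ← Matrix.mul_assoc, mul_nonsing_inv _ (det_ne hp).isUnit, Matrix.one_mul]

theorem cn_cdo {U : Set ℂ} (hU : IsOpen U) {h : ℂ → Mx n} {k : ℕ∞}
    (hh : ContDiffOn ℝ ((k : WithTop ℕ∞) + 1) h U) (hp : ∀ z ∈ U, (h z).PosDef) :
    ContDiffOn ℝ k (cn h) U := fun z hz =>
  ((cda_inv ((hh.contDiffAt (hU.mem_nhds hz)).of_le le_self_add) (det_ne (hp z hz))).mul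
    ((dz_cdo hU hh).contDiffAt (hU.mem_nhds hz))).contDiffWithinAt

theorem cdo_of_cn {U : Set ℂ} (hU : IsOpen U) {h : ℂ → Mx n} {k : ℕ∞} (hk : 1 ≤ k)
    (hh : ContDiffOn ℝ k h U) (hp : ∀ z ∈ U, (h z).PosDef) (hc : ContDiffOn ℝ k (cn h) U) :
    ContDiffOn ℝ ((k : WithTop ℕ∞) + 1) h U := by
  have hd : DifferentiableOn ℝ h U := hh.differentiableOn (by
    have : (1 : WithTop ℕ∞) ≤ k := by exact_mod_cast hk
    exact (zero_lt_one.trans_le this).ne')
  have h1 : ContDiffOn ℝ k (dz h) U := (hh.mul hc).congr fun z hz => dz_cn (hp z hz)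
  refine cdo_succ hU hd h1 (ContDiffOn.congr (f := fun z => (dz h z)ᴴ) (fun z hz =>
    (cda_ct (h1.contDiffAt (hU.mem_nhds hz))).contDiffWithinAt) fun z hz => ?_)
  exact db_herm ((hd z hz).differentiableAt (hU.mem_nhds hz)) (mem_of_superset (hU.mem_nhds hz) hp)

theorem reg : REG := by
  intro n _ _ U h Γ hU h1 hp hΓ hw
  have c0 : ContinuousOn (cn h) U := (cn_cdo (k := 0) hU (by simpa using h1) hp).continuousOn
  have key : ∀ k : ℕ, ContDiffOn ℝ ((k + 1 : ℕ) : ℕ∞) h U →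
      ContDiffOn ℝ ((k + 1 : ℕ) : ℕ∞) (cn h) U ∧ ∀ z ∈ U, db (cn h) z = -Γ (z, h z) := fun k hk => by
    have cG : ContDiffOn ℝ ((k + 1 : ℕ) : ℕ∞) (fun z => -Γ (z, h z)) U := fun z hz =>
      (((hΓ z hz).of_le (by exact_mod_cast le_top)).comp z
        (contDiffAt_id.prodMk (hk.contDiffAt (hU.mem_nhds hz)))).neg.contDiffWithinAt
    exact (weyl (Mx n) U _ _ hU c0 cG.continuousOn hw).2 _ (by exact_mod_cast Nat.le_add_left 1 k) cG
  have ind : ∀ k : ℕ, ContDiffOn ℝ ((k + 1 : ℕ) : ℕ∞) h U := fun k => by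
    induction k with
    | zero => simpa using h1
    | succ k ih =>
      have := cdo_of_cn hU (by exact_mod_cast Nat.le_add_left 1 k) ih hp (key k ih).1
      exact_mod_cast this
  refine ⟨contDiffOn_infty.2 fun k => (ind k).of_le (by exact_mod_cast Nat.le_succ k),
    fun z hz => ?_⟩
  rw [cv, (key 0 (ind 0)).2 z hz, neg_neg]

theorem tlu_ct {U : Set ℂ} {s : ℕ → ℂ → Mx n} {p : ℂ → Mx n}
    (t : TendstoLocallyUniformlyOn s p atTop U) (cp : ContinuousOn p U) :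
    TendstoLocallyUniformlyOn (fun j z => (s j z)ᴴ) (fun z => (p z)ᴴ) atTop U :=
  tlu_comp (Φ := fun A : Mx n => Aᴴ) t cp fun x _ => continuous_id.matrix_conjTranspose.continuousAt

theorem cat_inv {A : Mx n} (h : A.det ≠ 0) : ContinuousAt (fun B : Mx n => B⁻¹) A :=
  (an_inv (𝕜 := ℝ) (f := id) analyticAt_id h).continuousAt

theorem tlu_mul {U : Set ℂ} {s q : ℕ → ℂ → Mx n} {h p : ℂ → Mx n}
    (t0 : TendstoLocallyUniformlyOn s h atTop U) (ch : ContinuousOn h U)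
    (t1 : TendstoLocallyUniformlyOn q p atTop U) (cp : ContinuousOn p U) :
    TendstoLocallyUniformlyOn (fun j z => s j z * q j z) (fun z => h z * p z) atTop U :=
  tlu_comp (Φ := fun A : Mx n × Mx n => A.1 * A.2) (t0.prodMk t1) (ch.prodMk cp)
    fun x _ => (continuous_fst.matrix_mul continuous_snd).continuousAt

theorem tlu_inv_mul {U : Set ℂ} {s q : ℕ → ℂ → Mx n} {h p : ℂ → Mx n}
    (t0 : TendstoLocallyUniformlyOn s h atTop U) (ch : ContinuousOn h U)
    (t1 : TendstoLocallyUniformlyOn q p atTop U) (cp : ContinuousOn p U)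
    (hp : ∀ z ∈ U, (h z).det ≠ 0) :
    TendstoLocallyUniformlyOn (fun j z => (s j z)⁻¹ * q j z) (fun z => (h z)⁻¹ * p z) atTop U := by
  have i0 : TendstoLocallyUniformlyOn (fun j z => (s j z)⁻¹) (fun z => (h z)⁻¹) atTop U :=
    tlu_comp (Φ := fun A : Mx n => A⁻¹) t0 ch fun x hx => cat_inv (hp x hx)
  have ci : ContinuousOn (fun z => (h z)⁻¹) U := fun x hx =>
    (cat_inv (hp x hx)).comp_continuousWithinAt (ch x hx)
  exact tlu_mul i0 ci t1 cp

theorem tlu_neg {F : Type} [NormedAddCommGroup F] {U : Set ℂ} {s : ℕ → ℂ → F} {p : ℂ → F}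
    (t : TendstoLocallyUniformlyOn (fun j z => -s j z) p atTop U) :
    TendstoLocallyUniformlyOn s (fun z => -p z) atTop U :=
  t.neg.congr fun j z _ => neg_neg _

/-- limits of metrics: the limit is `C¹` and solves the limit equation weakly -/
theorem lim_met {U : Set ℂ} (hU : IsOpen U) {s : ℕ → ℂ → Mx n} {h p G : ℂ → Mx n}
    (hs : ∀ j, ContDiffOn ℝ 2 (s j) U) (sp : ∀ j, ∀ z ∈ U, (s j z).PosDef)
    (hp : ∀ z ∈ U, (h z).PosDef) (t0 : TendstoLocallyUniformlyOn s h atTop U)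
    (t1 : TendstoLocallyUniformlyOn (fun j => dz (s j)) p atTop U)
    (t2 : TendstoLocallyUniformlyOn (fun j => cv (s j)) G atTop U) :
    ContDiffOn ℝ 1 h U ∧ (∀ z ∈ U, dz h z = p z) ∧ ContinuousOn G U ∧
      Wk U (cn h) (fun z => -G z) := by
  have s1 : ∀ j, ContDiffOn ℝ 1 (s j) U := fun j => (hs j).of_le (by norm_num)
  have cp : ContinuousOn p U := t1.continuousOn (Frequently.of_forall fun j => dz_contOn hU (s1 j))
  have ch : ContinuousOn h U := t0.continuousOn (Frequently.of_forall fun j => (s1 j).continuousOn)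
  have t3 : TendstoLocallyUniformlyOn (fun j => db (s j)) (fun z => (p z)ᴴ) atTop U := by
    refine (tlu_ct t1 cp).congr fun j z hz => ?_
    exact (db_herm (((s1 j).contDiffAt (hU.mem_nhds hz)).differentiableAt (by norm_num))
      (mem_of_superset (hU.mem_nhds hz) (sp j))).symm
  obtain ⟨q1, q2⟩ := lim_c1 (F := Mx n) hU s1 (fun z hz => t0.tendsto_at hz) t1 t3
  have n1 : ∀ j, ContDiffOn ℝ 1 (cn (s j)) U := fun j =>
    cn_cdo (k := 1) hU (by simpa [one_add_one_eq_two] using hs j) (sp j)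
  have t4 : TendstoLocallyUniformlyOn (fun j => cn (s j)) (fun z => (h z)⁻¹ * p z) atTop U :=
    tlu_inv_mul t0 ch t1 cp fun z hz => det_ne (hp z hz)
  have t5 := tlu_neg (F := Mx n) (s := fun j => db (cn (s j))) t2
  refine ⟨q1, fun z hz => (q2 z hz).1, ?_, ?_⟩
  · exact t2.continuousOn (Frequently.of_forall fun j => (db_contOn hU (n1 j)).neg)
  · refine wk_congr (wk_lim (F := Mx n) hU (fun j => (n1 j).continuousOn)
      (fun j => db_contOn hU (n1 j)) (fun j => wk_db hU (n1 j)) t4 t5) (fun z hz => ?_)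
      fun z _ => rfl
    simp only [cn, (q2 z hz).1]

/-- REG in approximate form -/
theorem reg_lim {U : Set ℂ} (hU : IsOpen U) {s : ℕ → ℂ → Mx n} {h p : ℂ → Mx n}
    {Γ : ℂ × Mx n → Mx n} (hs : ∀ j, ContDiffOn ℝ 2 (s j) U) (sp : ∀ j, ∀ z ∈ U, (s j z).PosDef)
    (hp : ∀ z ∈ U, (h z).PosDef) (hΓ : ∀ z ∈ U, ContDiffAt ℝ ∞ Γ (z, h z))
    (t0 : TendstoLocallyUniformlyOn s h atTop U)
    (t1 : TendstoLocallyUniformlyOn (fun j => dz (s j)) p atTop U)
    (t2 : TendstoLocallyUniformlyOn (fun j => cv (s j)) (fun z => Γ (z, h z)) atTop U) :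
    ContDiffOn ℝ ∞ h U ∧ ∀ z ∈ U, cv h z = Γ (z, h z) ∧ dz h z = p z := by
  obtain ⟨q1, q2, -, q4⟩ := lim_met hU hs sp hp t0 t1 t2
  obtain ⟨r1, r2⟩ := reg n U h Γ hU q1 hp hΓ q4
  exact ⟨r1, fun z hz => ⟨r2 z hz, q2 z hz⟩⟩

end Vale.Agent.P275CT
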