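import Vale.Agent.P275CT.Reg

/-!
P275 (helper54): the interior gradient estimate, block GRAD.
-/

set_option linter.all false

open scoped Matrix.Norms.Operator Topology ComplexOrder ComplexConjugate ContDiff Real MatrixOrder
open Filter Set Matrix Complex Metric MeasureTheory
open Vale.Agent.P281Z.Hm Vale.Agent.P275NA

noncomputable section

namespace Vale.Agent.P275CT

theorem cT_far {F : Type} [NormedAddCommGroup F] [NormedSpace ℝ F] [NormedSpace ℂ F]
    [IsScalarTower ℝ ℂ F] {g : ℂ → F} (hg : Continuous g) (cg : HasCompactSupport g) {z : ℂ}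
    {δ : ℝ} (hδ : 0 < δ) (h0 : ∀ ξ, ‖z - ξ‖ < δ → g ξ = 0) : ‖cT g z‖ ≤ δ⁻¹ * ∫ ξ, ‖g ξ‖ := by
  have h1 : ‖cK (fun w => w⁻¹) g z‖ ≤ δ⁻¹ * ∫ ξ, ‖g ξ‖ := by
    rw [cK_eq, ← integral_const_mul]
    refine norm_integral_le_of_norm_le ((hg.integrable_of_hasCompactSupport cg).norm.const_mul _)
      (Eventually.of_forall fun ξ => ?_)
    rcases lt_or_ge ‖z - ξ‖ δ with h | h
    · simp [h0 ξ h]
    · rw [norm_smul, norm_inv]
      gcongr
  have h2 : π⁻¹ ≤ 1 := inv_le_one_of_one_le₀ (by linarith [Real.pi_gt_three])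
  rw [cT_eq, norm_smul, npi]
  exact (mul_le_of_le_one_left (norm_nonneg _) h2).trans h1

theorem cut_le {F : Type} [NormedAddCommGroup F] [NormedSpace ℂ F] {a : ℂ → ℂ} {u : ℂ → F}
    {K : ℝ} (h : ∀ z ∈ tsupport a, ‖u z‖ ≤ K) (z : ℂ) : ‖a z • u z‖ ≤ ‖a z‖ * K := by
  by_cases hz : z ∈ tsupport a
  · rw [norm_smul]
    exact mul_le_mul_of_nonneg_left (h z hz) (norm_nonneg _)
  · simp [image_eq_zero_of_notMem_tsupport hz]

theorem int_cut_le {F : Type} [NormedAddCommGroup F] [NormedSpace ℝ F] [NormedSpace ℂ F]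
    {a : ℂ → ℂ} {u : ℂ → F} {K : ℝ} (ha : Continuous a) (ca : HasCompactSupport a)
    (h : ∀ z ∈ tsupport a, ‖u z‖ ≤ K) : ‖∫ z, a z • u z‖ ≤ (∫ z, ‖a z‖) * K := by
  rw [← integral_mul_const]
  exact norm_integral_le_of_norm_le ((ha.integrable_of_hasCompactSupport ca).norm.mul_const K)
    (Eventually.of_forall (cut_le h))

variable {n : Type} [Fintype n] [DecidableEq n]

theorem re_tr (B : Mx n) : (trace (Bᴴ * B)).re = ∑ i, ∑ j, ‖B i j‖ ^ 2 := by
  rw [Finset.sum_comm]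
  simp only [trace, diag_apply, Matrix.mul_apply, conjTranspose_apply, re_sum, star_def,
    ← normSq_eq_conj_mul_self, ofReal_re, Complex.normSq_eq_norm_sq]

theorem norm_le_tr : ∃ K : ℝ, 0 ≤ K ∧ ∀ B : Mx n, ‖B‖ ≤ K * (1 + (trace (Bᴴ * B)).re) := by
  refine ⟨∑ i, ∑ j, ‖(single i j 1 : Mx n)‖, by positivity, fun B => ?_⟩
  have e : B = ∑ i, ∑ j, B i j • (single i j 1 : Mx n) := by
    conv_lhs => rw [matrix_eq_sum_single B]
    simp [smul_single]
  have h1 : ∀ i j, ‖B i j‖ ≤ 1 + (trace (Bᴴ * B)).re := fun i j => by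
    rw [re_tr]
    have h2 : ‖B i j‖ ^ 2 ≤ ∑ i, ∑ j, ‖B i j‖ ^ 2 :=
      (Finset.single_le_sum (f := fun j => ‖B i j‖ ^ 2) (fun _ _ => by positivity)
        (Finset.mem_univ j)).trans (Finset.single_le_sum (f := fun i => ∑ j, ‖B i j‖ ^ 2)
        (fun _ _ => by positivity) (Finset.mem_univ i))
    nlinarith [sq_nonneg (‖B i j‖ - 1)]
  conv_lhs => rw [e]
  rw [Finset.sum_mul]
  refine norm_sum_le_of_le _ fun i _ => ?_
  rw [Finset.sum_mul]
  refine norm_sum_le_of_le _ fun j _ => ?_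
  rw [norm_smul, mul_comm]
  exact mul_le_mul_of_nonneg_left (h1 i j) (norm_nonneg _)

theorem re_tr_nonneg {A : Mx n} (hA : A.PosSemidef) : 0 ≤ (trace A).re :=
  (Complex.le_def.1 hA.trace_nonneg).1

theorem tr_low {c C : ℝ} {h : Mx n} (hb : Btw c C h) (B : Mx n) :
    c * (trace (Bᴴ * B)).re ≤ (trace (Bᴴ * h * B)).re := by
  have := re_tr_nonneg (hb.1.conjTranspose_mul_mul_same B)
  rw [Matrix.mul_sub, Matrix.sub_mul, trace_sub, Matrix.mul_smul, Matrix.smul_mul, Matrix.mul_one,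
    trace_smul, sub_re, smul_eq_mul, re_ofReal_mul] at this
  linarith

theorem norm_btw (C : ℝ) : ∃ K : ℝ, 0 ≤ K ∧ ∀ (c : ℝ) (h : Mx n), h.PosDef → Btw c C h →
    ‖h‖ ≤ K := by
  obtain ⟨K, hK, h1⟩ := norm_le_tr (n := n)
  refine ⟨K * (1 + |C| * (Fintype.card n * |C|)), by positivity, fun c h hp hb => ?_⟩
  refine (h1 h).trans (mul_le_mul_of_nonneg_left ?_ hK)
  have h2 := re_tr_nonneg hp.posSemidef
  have h3 := re_tr_nonneg hb.2
  rw [trace_sub, trace_smul, trace_one, sub_re, smul_eq_mul, re_ofReal_mul, natCast_re] at h3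
  obtain ⟨s, hs⟩ := CStarAlgebra.nonneg_iff_eq_star_mul_self.mp hp.posSemidef.nonneg
  have h4 := re_tr_nonneg (hb.2.mul_mul_conjTranspose_same s)
  rw [trace_mul_comm, ← Matrix.mul_assoc, ← star_eq_conjTranspose, ← hs, Matrix.mul_sub,
    trace_sub, Matrix.mul_smul, Matrix.mul_one, trace_smul, sub_re, smul_eq_mul,
    re_ofReal_mul] at h4
  rw [hp.isHermitian.eq]
  have h5 := le_abs_self C
  have h6 : (0 : ℝ) ≤ Fintype.card n := by positivity
  have h7 : (trace h).re ≤ Fintype.card n * |C| := by nlinarith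
  nlinarith [abs_nonneg C]

theorem norm_ent_le (A : Mx n) (i j : n) : ‖A i j‖ ≤ ‖A‖ := by
  have : ‖A i j‖₊ ≤ ‖A‖₊ := by
    rw [linfty_opNNNorm_def]
    exact (Finset.single_le_sum (f := fun j => ‖A i j‖₊) (fun _ _ => zero_le)
      (Finset.mem_univ j)).trans (Finset.le_sup (f := fun i => ∑ j, ‖A i j‖₊) (Finset.mem_univ i))
  exact_mod_cast this

theorem norm_tr_le (A : Mx n) : ‖trace A‖ ≤ Fintype.card n * ‖A‖ := by
  refine (norm_sum_le_of_le _ fun i _ => norm_ent_le A i i).trans (le_of_eq ?_)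
  simp

theorem cdo_tr {U : Set ℂ} {f : ℂ → Mx n} {k : WithTop ℕ∞} (hf : ContDiffOn ℝ k f U) :
    ContDiffOn ℝ k (fun z => trace (f z)) U := fun z hz =>
  (an_trace (𝕜 := ℝ) (f := id) analyticAt_id).contDiffAt.comp_contDiffWithinAt z (hf z hz)

theorem lap_tr {U : Set ℂ} (hU : IsOpen U) {h : ℂ → Mx n} (h2 : ContDiffOn ℝ 2 h U)
    (hp : ∀ z ∈ U, (h z).PosDef) {z : ℂ} (hz : z ∈ U) : db (dz fun x => trace (h x)) z =
      trace ((cn h z)ᴴ * h z * cn h z) - trace (h z * cv h z) := by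
  have d : ∀ x ∈ U, DifferentiableAt ℝ h x := fun x hx =>
    (h2.contDiffAt (hU.mem_nhds hx)).differentiableAt (by norm_num)
  have n1 : DifferentiableAt ℝ (cn h) z := ((cn_cdo (k := 1) hU
    (by simpa [one_add_one_eq_two] using h2) hp).contDiffAt (hU.mem_nhds hz)).differentiableAt
    (by norm_num)
  have e : (dz fun x => trace (h x)) =ᶠ[𝓝 z] fun x => trace (h x * cn h x) :=
    mem_of_superset (hU.mem_nhds hz) fun x hx =>
      (wd_trace (d x hx) 1).trans (congrArg trace (dz_cn (hp x hx)))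
  have e2 := db_herm (d z hz) (mem_of_superset (hU.mem_nhds hz) hp)
  rw [dz_cn (hp z hz), conjTranspose_mul, (hp z hz).isHermitian.eq] at e2
  refine (wb_congr e 1).trans ?_
  rw [wb_trace (df_mul (d z hz) n1), wb_mul (d z hz) n1, trace_add, show wb 1 h z = _ from e2, cv,
    Matrix.mul_neg, trace_neg, sub_neg_eq_add]

theorem energy {U : Set ℂ} (hU : IsOpen U) {b : ℂ → ℝ} (hb : ContDiff ℝ ∞ b)
    (cb : HasCompactSupport b) (sb : tsupport b ⊆ U) (K M : ℝ) : ∃ E : ℝ, ∀ h : ℂ → Mx n,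
    ContDiffOn ℝ 2 h U → (∀ z ∈ U, (h z).PosDef ∧ ‖h z‖ ≤ K ∧ ‖cv h z‖ ≤ M) →
    (Integrable fun z => b z * (trace ((cn h z)ᴴ * h z * cn h z)).re) ∧
    ∫ z, b z * (trace ((cn h z)ᴴ * h z * cn h z)).re ≤ E := by
  set η : ℂ → ℂ := fun z => (b z : ℂ) with hη
  have c : ContDiff ℝ ∞ η := ofRealCLM.contDiff.comp hb
  have c1 : ContDiff ℝ 1 η := c.of_le (by exact_mod_cast le_top)
  have sη : tsupport η ⊆ U := (ts_ofReal b).symm ▸ sb
  have cη : HasCompactSupport η := cb.mono fun x hx h0 => hx (by simp [hη, h0])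
  have c2 : ContDiff ℝ 1 (db η) := contDiffOn_univ.1 (db_cdo isOpen_univ
    (by simpa [one_add_one_eq_two] using (contDiff_infty.1 c 2).contDiffOn))
  refine ⟨(∫ z, ‖dz (db η) z‖) * (Fintype.card n * K) +
    (∫ z, ‖η z‖) * (Fintype.card n * (K * M)), fun h h2 hh => ?_⟩
  have hp := fun z hz => (hh z hz).1
  have h2' : ContDiffOn ℝ (1 + 1) h U := by simpa [one_add_one_eq_two] using h2
  have n1 : ContDiffOn ℝ 1 (cn h) U := cn_cdo (k := 1) hU h2' hp
  have T2 := cdo_tr h2'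
  have w1 := wk_db hU (dz_cdo hU T2) η c1 cη sη
  have w2 := wk_dz hU (T2.of_le le_self_add) c2 (db_cs cη) ((db_ts η).trans sη)
  have q1 : ContinuousOn (fun z => trace ((cn h z)ᴴ * h z * cn h z)) U :=
    continuous_id.matrix_trace.comp_continuousOn
      (((continuous_id.matrix_conjTranspose.comp_continuousOn n1.continuousOn).mul
        h2.continuousOn).mul n1.continuousOn)
  have q2 : ContinuousOn (fun z => trace (h z * cv h z)) U :=
    continuous_id.matrix_trace.comp_continuousOn (h2.continuousOn.mul (db_contOn hU n1).neg)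
  have i1 := int_cut hU c.continuous cη sη q1
  have i2 := int_cut hU c.continuous cη sη q2
  rw [w1, neg_neg, int_cut_congr sη fun z hz => lap_tr hU h2 hp hz] at w2
  simp only [smul_sub] at w2
  rw [integral_sub i1 i2] at w2
  have e : ∀ z, b z * (trace ((cn h z)ᴴ * h z * cn h z)).re =
      reCLM (η z • trace ((cn h z)ᴴ * h z * cn h z)) := fun z => by simp [hη]
  simp only [e]
  refine ⟨reCLM.integrable_comp i1, ?_⟩
  rw [reCLM.integral_comp_comm i1, eq_add_of_sub_eq w2.symm]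
  refine (re_le_norm _).trans ((norm_add_le _ _).trans (add_le_add ?_ ?_))
  · refine int_cut_le (dz_cont c2) (dz_cs (db_cs cη)) fun z hz => (norm_tr_le _).trans ?_
    gcongr
    exact (hh z (sη (db_ts η (dz_ts _ hz)))).2.1
  · refine int_cut_le c.continuous cη fun z hz => (norm_tr_le _).trans ?_
    have := hh z (sη hz)
    gcongr
    exact (norm_mul_le _ _).trans (mul_le_mul this.2.1 this.2.2 (norm_nonneg _)
      ((norm_nonneg _).trans this.2.1))

theorem grad_sup {r' r c C M : ℝ} (h0 : 0 < r') (hr : r' < r) (hc : 0 < c) : ∃ K : ℝ,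
    ∀ h : ℂ → Mx n, (∀ z ∈ ball (0 : ℂ) r, MetAt h z ∧ Btw c C (h z) ∧ ‖cv h z‖ ≤ M) →
    ∀ z ∈ ball (0 : ℂ) r', ‖cn h z‖ ≤ K := by
  obtain ⟨r2, a1, a2⟩ := exists_between hr
  obtain ⟨r3, a3, a4⟩ := exists_between a2
  obtain ⟨r4, a5, a6⟩ := exists_between a4
  obtain ⟨b, b1, b2, b3, b4⟩ := ex_cut 0 (by linarith : 0 < r3) a5
  obtain ⟨η, e1, e2, e3, e4, e5⟩ := ex_cutC 0 (by linarith : 0 < r2) a3
  have e1' : ContDiff ℝ 1 η := e1.of_le (by exact_mod_cast le_top)
  have cb : HasCompactSupport b := by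
    rw [HasCompactSupport, b4]
    exact isCompact_closedBall _ _
  have sη : tsupport η ⊆ ball 0 r := e5 ▸ closedBall_subset_ball a4
  obtain ⟨K0, k0, hK0⟩ := norm_le_tr (n := n)
  obtain ⟨K1, k1, hK1⟩ := norm_btw (n := n) C
  obtain ⟨E, hE⟩ := energy (n := n) isOpen_ball b1 cb (b4 ▸ closedBall_subset_ball a6) K1 M
  obtain ⟨A, hA⟩ := (db_cs e2).exists_bound_of_continuous (db_cont e1')
  have A0 : 0 ≤ A := (norm_nonneg _).trans (hA 0)
  refine ⟨(r2 - r')⁻¹ * (A * K0 * ((∫ z, b z) + c⁻¹ * E)) + 3 * r * M, fun h hh z hz => ?_⟩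
  have hp : ∀ z ∈ ball (0 : ℂ) r, (h z).PosDef := fun z hz => (hh z hz).1.pos.self_of_nhds
  have h2 : ContDiffOn ℝ 2 h (ball 0 r) := fun z hz => (hh z hz).1.c2.contDiffWithinAt
  have n1 : ContDiffOn ℝ 1 (cn h) (ball 0 r) :=
    cn_cdo (k := 1) isOpen_ball (by simpa [one_add_one_eq_two] using h2) hp
  obtain ⟨i1, hE1⟩ := hE h h2 fun z hz => ⟨hp z hz, hK1 c _ (hp z hz) (hh z hz).2.1, (hh z hz).2.2⟩
  have M0 : 0 ≤ M := (norm_nonneg _).trans (hh 0 (mem_ball_self (by linarith))).2.2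
  have hz' : ‖z‖ < r' := mem_ball_zero_iff.1 hz
  have R := rep isOpen_ball n1.continuousOn (db_contOn isOpen_ball n1) (wk_db isOpen_ball n1) e1' e2
    sη z
  rw [e4 z (mem_closedBall_zero_iff.2 (by linarith)), one_smul] at R
  rw [R]
  have g1 := cont_cut isOpen_ball (db_cont e1') ((db_ts η).trans sη) n1.continuousOn
  have ib : Integrable b := b1.continuous.integrable_of_hasCompactSupport cb
  refine (norm_add_le _ _).trans (add_le_add ((cT_far g1 (cs_cut (db_cs e2) _)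
    (sub_pos.2 a1) fun ξ hξ => ?_).trans ?_) ?_)
  · rw [db_one e4, zero_smul]
    rw [mem_ball_zero_iff]
    have := norm_sub_le z (z - ξ)
    rw [sub_sub_cancel] at this
    linarith
  · refine mul_le_mul_of_nonneg_left ?_ (inv_pos.2 (sub_pos.2 a1)).le
    calc _ ≤ ∫ ξ, A * K0 * (b ξ + c⁻¹ * (b ξ * (trace ((cn h ξ)ᴴ * h ξ * cn h ξ)).re)) := by
          refine integral_mono (g1.integrable_of_hasCompactSupport (cs_cut (db_cs e2) _)).norm
            ((ib.add (i1.const_mul _)).const_mul _) fun ξ => ?_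
          by_cases hξ : ξ ∈ tsupport η
          · have t1 := tr_low (hh ξ (sη hξ)).2.1 (cn h ξ)
            have t2 : (trace ((cn h ξ)ᴴ * cn h ξ)).re ≤
                c⁻¹ * (trace ((cn h ξ)ᴴ * h ξ * cn h ξ)).re := (le_inv_mul_iff₀ hc).2 t1
            simp only [b3 ξ (e5 ▸ hξ), one_mul, norm_smul, mul_assoc A]
            exact mul_le_mul (hA ξ) ((hK0 _).trans (by gcongr)) (norm_nonneg _) A0
          · simp only [image_eq_zero_of_notMem_tsupport fun h => hξ (db_ts η h), zero_smul,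
              norm_zero]
            by_cases hξ' : ξ ∈ tsupport b
            · have t1 := re_tr_nonneg ((hp ξ (closedBall_subset_ball a6
                (b4 ▸ hξ'))).posSemidef.conjTranspose_mul_mul_same (cn h ξ))
              have := (b2 ξ).1
              positivity
            · simp [image_eq_zero_of_notMem_tsupport hξ']
      _ ≤ _ := by
          rw [integral_const_mul, integral_add ib (i1.const_mul _), integral_const_mul]
          gcongr
  · refine cT_bound (by linarith) (fun x hx => ?_) (fun x => (cut_le (K := M) (fun y hy => ?_) x).trans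
      (mul_le_of_le_one_left M0 (e3 x))) z
    · rw [image_eq_zero_of_notMem_tsupport (f := η) fun h => ?_, zero_smul]
      have := mem_ball_zero_iff.1 (sη h)
      linarith
    · simpa [cv] using (hh y (sη hy)).2.2

theorem grad : GRAD := by
  intro n _ _ r' r c C M h0 hr hc
  obtain ⟨r2, a1, a2⟩ := exists_between hr
  obtain ⟨r1, a3, a4⟩ := exists_between a1
  obtain ⟨K, hK⟩ := grad_sup (n := n) (C := C) (M := M) (h0.trans a1) a2 hc
  obtain ⟨η, e1, e2, e3, e4, e5⟩ := ex_cutC 0 h0 a3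
  have e1' : ContDiff ℝ 1 η := e1.of_le (by exact_mod_cast le_top)
  have s2 : tsupport η ⊆ ball 0 r2 := e5 ▸ closedBall_subset_ball a4
  have sη : tsupport η ⊆ ball 0 r := s2.trans (ball_subset_ball a2.le)
  obtain ⟨A, hA⟩ := (db_cs e2).exists_bound_of_continuous (db_cont e1')
  refine ⟨max K (π⁻¹ * hC r * (A * K + M)), fun h hh z hz w hw =>
    ⟨(hK h hh z (ball_subset_ball a1.le hz)).trans (le_max_left _ _), ?_⟩⟩
  have hp : ∀ z ∈ ball (0 : ℂ) r, (h z).PosDef := fun z hz => (hh z hz).1.pos.self_of_nhds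
  have h2 : ContDiffOn ℝ 2 h (ball 0 r) := fun z hz => (hh z hz).1.c2.contDiffWithinAt
  have n1 : ContDiffOn ℝ 1 (cn h) (ball 0 r) :=
    cn_cdo (k := 1) isOpen_ball (by simpa [one_add_one_eq_two] using h2) hp
  have M0 : 0 ≤ M := (norm_nonneg _).trans (hh 0 (mem_ball_self (by linarith))).2.2
  have K0 : 0 ≤ K := (norm_nonneg _).trans (hK h hh 0 (mem_ball_self (by linarith)))
  have g1 := cont_cut isOpen_ball (db_cont e1') ((db_ts η).trans sη) n1.continuousOn
  have g2 := cont_cut isOpen_ball e1.continuous sη (db_contOn isOpen_ball n1)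
  have R : ∀ x ∈ ball (0 : ℂ) r', cn h x =
      cT (fun y => db η y • cn h y + η y • db (cn h) y) x := fun x hx => by
    rw [cT_add g1 (cs_cut (db_cs e2) _) g2 (cs_cut e2 _), ← rep isOpen_ball n1.continuousOn
      (db_contOn isOpen_ball n1) (wk_db isOpen_ball n1) e1' e2 sη x,
      e4 x (ball_subset_closedBall hx), one_smul]
  rw [R z hz, R w hw]
  refine (cT_holder (g1.add g2) (h0.trans hr) (M := A * K + M) (fun x hx => ?_) (fun x => ?_)
    z w).trans (mul_le_mul_of_nonneg_right (le_max_right _ _) (Real.sqrt_nonneg _))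
  · have hx' : x ∉ tsupport η := fun h => by
      have := mem_ball_zero_iff.1 (sη h)
      linarith
    simp [image_eq_zero_of_notMem_tsupport hx',
      image_eq_zero_of_notMem_tsupport fun h => hx' (db_ts η h)]
  · refine (norm_add_le _ _).trans (add_le_add ((cut_le (K := K) (fun y hy =>
      hK h hh y (s2 (db_ts η hy))) x).trans (mul_le_mul_of_nonneg_right (hA x) K0))
      ((cut_le (K := M) (fun y hy => ?_) x).trans (mul_le_of_le_one_left M0 (e3 x))))
    simpa [cv] using (hh y (sη hy)).2.2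

end Vale.Agent.P275CT
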