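import Vale.Agent.P275CT.Weyl

/-!
P275 (helper54): potentials of continuous functions, block POT.
-/

set_option linter.all false

open scoped Topology ComplexConjugate ContDiff Real
open Filter Set Complex Metric MeasureTheory
open Vale.Agent.P281Z.Hm Vale.Agent.P275NA

noncomputable section

namespace Vale.Agent.P275CT

variable {F : Type} [NormedAddCommGroup F] [NormedSpace ℝ F] [NormedSpace ℂ F]
  [IsScalarTower ℝ ℂ F] [CompleteSpace F]

theorem smul_close {a : ℂ} {u v : F} {A ε : ℝ} (ha : ‖a‖ ≤ A) (h : ‖u - v‖ ≤ ε) :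
    ‖a • u - a • v‖ ≤ A * ε := by
  rw [← smul_sub, norm_smul]
  exact mul_le_mul ha h (norm_nonneg _) ((norm_nonneg _).trans ha)

theorem add_close {a b c d : F} {x y : ℝ} (h1 : ‖a - c‖ ≤ x) (h2 : ‖b - d‖ ≤ y) :
    ‖a + b - (c + d)‖ ≤ x + y := by
  rw [add_sub_add_comm]
  exact (norm_add_le _ _).trans (add_le_add h1 h2)

theorem ex_R2 {ψ : ℂ → ℂ} {g : ℂ → F} (cψ : HasCompactSupport ψ) (cg : HasCompactSupport g) :
    ∃ R, 0 < R ∧ (∀ z, R < ‖z‖ → z ∉ tsupport ψ) ∧ ∀ z, R < ‖z‖ → g z = 0 := by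
  obtain ⟨R1, h1, s1⟩ := cψ.isCompact.isBounded.exists_pos_norm_le
  obtain ⟨R2, h2, s2⟩ := ex_R cg
  exact ⟨R1 + R2, by positivity, fun z hz h => by linarith [s1 z h], fun z hz => s2 z (by linarith)⟩

theorem potT {ψ : ℂ → ℂ} {g : ℂ → F} (hψ : ContDiff ℝ 1 ψ) (cψ : HasCompactSupport ψ)
    (hg : Continuous g) (cg : HasCompactSupport g) :
    ContDiff ℝ 1 (cT fun z => ψ z • cB g z) ∧
      db (cT fun z => ψ z • cB g z) = (fun z => ψ z • cB g z) ∧
      dz (cT fun z => ψ z • cB g z) = cT fun z => dz ψ z • cB g z + ψ z • g z := by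
  obtain ⟨R, hR, sψ, sg⟩ := ex_R2 cψ cg
  obtain ⟨A, hA⟩ := cψ.exists_bound_of_continuous hψ.continuous
  obtain ⟨B, hB⟩ := (dz_cs cψ).exists_bound_of_continuous (dz_cont hψ)
  obtain ⟨s, h⟩ := approx hg
  have z0 : ∀ z, R < ‖z‖ → ψ z = 0 := fun z hz => image_eq_zero_of_notMem_tsupport (sψ z hz)
  have z1 : ∀ z, R < ‖z‖ → dz ψ z = 0 := fun z hz =>
    image_eq_zero_of_notMem_tsupport fun h => sψ z hz (dz_ts ψ h)
  have ss : ∀ j z, R < ‖z‖ → s j z = 0 := fun j z hz => (h j).2.2 z (sg z hz)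
  have h1 : ∀ j, ContDiff ℝ 1 (s j) := fun j => (h j).1.of_le (by exact_mod_cast le_top)
  have h2 : ∀ j, ContDiff ℝ 1 (cB (s j)) := fun j => cB_cd (n := 1) (h1 j) (cs_of (ss j))
  have h3 : ∀ j, ContDiff ℝ 1 fun z => ψ z • cB (s j) z := fun j => hψ.smul (h2 j)
  have c0 := cB_cont hg cg
  have k0 := fun j z => cB_close (h1 j).continuous hg hR (ss j) sg (h j).2.1 z
  have k1 := fun j z => smul_close (hA z) (k0 j z)
  have e1 : ∀ j, dz (cT fun z => ψ z • cB (s j) z) =
      cT fun z => dz ψ z • cB (s j) z + ψ z • s j z := fun j => by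
    rw [dz_cT (h3 j) (cs_cut cψ _)]
    refine congrArg cT (funext fun z => ?_)
    rw [dz_cut isOpen_univ hψ (subset_univ _) (h2 j).contDiffOn, dz_cB (h1 j) (cs_of (ss j))]
  have t0 : TendstoUniformly (fun j => cT fun z => ψ z • cB (s j) z) (cT fun z => ψ z • cB g z)
      atTop := tu_of (3 * R * (A * (3 * R))) fun j z =>
    (cT_close (h3 j).continuous (hψ.continuous.smul c0) hR (fun z hz => by simp [z0 z hz])
      (fun z hz => by simp [z0 z hz]) (k1 j) z).trans (le_of_eq (by ring))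
  have t1 : TendstoUniformly (fun j => dz (cT fun z => ψ z • cB (s j) z))
      (cT fun z => dz ψ z • cB g z + ψ z • g z) atTop := by
    simp only [e1]
    refine tu_of (3 * R * (B * (3 * R) + A)) fun j z => (cT_close
      (((dz_cont hψ).smul (h2 j).continuous).add (hψ.continuous.smul (h1 j).continuous))
      (((dz_cont hψ).smul c0).add (hψ.continuous.smul hg)) hR
      (fun z hz => by simp [z0 z hz, z1 z hz]) (fun z hz => by simp [z0 z hz, z1 z hz])
      (fun z => add_close (smul_close (hB z) (k0 j z)) (smul_close (hA z) ((h j).2.1 z))) z).trans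
      (le_of_eq (by ring))
  have t2 : TendstoUniformly (fun j => db (cT fun z => ψ z • cB (s j) z))
      (fun z => ψ z • cB g z) atTop := by
    simp only [fun j => db_cT (h3 j) (cs_cut cψ _)]
    exact tu_of (A * (3 * R)) fun j z => (k1 j z).trans (le_of_eq (by ring))
  obtain ⟨q1, q2⟩ := lim_c1 isOpen_univ
    (fun j => (cT_cd (n := 1) (h3 j) (cs_cut cψ _)).contDiffOn) (fun z _ => t0.tendsto_at z)
    t1.tendstoLocallyUniformly.tendstoLocallyUniformlyOn
    t2.tendstoLocallyUniformly.tendstoLocallyUniformlyOn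
  exact ⟨contDiffOn_univ.1 q1, funext fun z => (q2 z trivial).2, funext fun z => (q2 z trivial).1⟩

theorem potB {ψ : ℂ → ℂ} {g : ℂ → F} (hψ : ContDiff ℝ 1 ψ) (cψ : HasCompactSupport ψ)
    (hg : Continuous g) (cg : HasCompactSupport g) :
    ContDiff ℝ 1 (cB fun z => ψ z • cT g z) ∧
      dz (cB fun z => ψ z • cT g z) = (fun z => ψ z • cT g z) ∧
      db (cB fun z => ψ z • cT g z) = cB fun z => db ψ z • cT g z + ψ z • g z := by
  obtain ⟨R, hR, sψ, sg⟩ := ex_R2 cψ cg
  obtain ⟨A, hA⟩ := cψ.exists_bound_of_continuous hψ.continuous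
  obtain ⟨B, hB⟩ := (db_cs cψ).exists_bound_of_continuous (db_cont hψ)
  obtain ⟨s, h⟩ := approx hg
  have z0 : ∀ z, R < ‖z‖ → ψ z = 0 := fun z hz => image_eq_zero_of_notMem_tsupport (sψ z hz)
  have z1 : ∀ z, R < ‖z‖ → db ψ z = 0 := fun z hz =>
    image_eq_zero_of_notMem_tsupport fun h => sψ z hz (db_ts ψ h)
  have ss : ∀ j z, R < ‖z‖ → s j z = 0 := fun j z hz => (h j).2.2 z (sg z hz)
  have h1 : ∀ j, ContDiff ℝ 1 (s j) := fun j => (h j).1.of_le (by exact_mod_cast le_top)
  have h2 : ∀ j, ContDiff ℝ 1 (cT (s j)) := fun j => cT_cd (n := 1) (h1 j) (cs_of (ss j))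
  have h3 : ∀ j, ContDiff ℝ 1 fun z => ψ z • cT (s j) z := fun j => hψ.smul (h2 j)
  have c0 := cT_cont hg cg
  have k0 := fun j z => cT_close (h1 j).continuous hg hR (ss j) sg (h j).2.1 z
  have k1 := fun j z => smul_close (hA z) (k0 j z)
  have e1 : ∀ j, db (cB fun z => ψ z • cT (s j) z) =
      cB fun z => db ψ z • cT (s j) z + ψ z • s j z := fun j => by
    rw [db_cB (h3 j) (cs_cut cψ _)]
    refine congrArg cB (funext fun z => ?_)
    rw [db_cut isOpen_univ hψ (subset_univ _) (h2 j).contDiffOn, db_cT (h1 j) (cs_of (ss j))]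
  have t0 : TendstoUniformly (fun j => cB fun z => ψ z • cT (s j) z) (cB fun z => ψ z • cT g z)
      atTop := tu_of (3 * R * (A * (3 * R))) fun j z =>
    (cB_close (h3 j).continuous (hψ.continuous.smul c0) hR (fun z hz => by simp [z0 z hz])
      (fun z hz => by simp [z0 z hz]) (k1 j) z).trans (le_of_eq (by ring))
  have t1 : TendstoUniformly (fun j => db (cB fun z => ψ z • cT (s j) z))
      (cB fun z => db ψ z • cT g z + ψ z • g z) atTop := by
    simp only [e1]
    refine tu_of (3 * R * (B * (3 * R) + A)) fun j z => (cB_close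
      (((db_cont hψ).smul (h2 j).continuous).add (hψ.continuous.smul (h1 j).continuous))
      (((db_cont hψ).smul c0).add (hψ.continuous.smul hg)) hR
      (fun z hz => by simp [z0 z hz, z1 z hz]) (fun z hz => by simp [z0 z hz, z1 z hz])
      (fun z => add_close (smul_close (hB z) (k0 j z)) (smul_close (hA z) ((h j).2.1 z))) z).trans
      (le_of_eq (by ring))
  have t2 : TendstoUniformly (fun j => dz (cB fun z => ψ z • cT (s j) z))
      (fun z => ψ z • cT g z) atTop := by
    simp only [fun j => dz_cB (h3 j) (cs_cut cψ _)]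
    exact tu_of (A * (3 * R)) fun j z => (k1 j z).trans (le_of_eq (by ring))
  obtain ⟨q1, q2⟩ := lim_c1 isOpen_univ
    (fun j => (cB_cd (n := 1) (h3 j) (cs_cut cψ _)).contDiffOn) (fun z _ => t0.tendsto_at z)
    t2.tendstoLocallyUniformly.tendstoLocallyUniformlyOn
    t1.tendstoLocallyUniformly.tendstoLocallyUniformlyOn
  exact ⟨contDiffOn_univ.1 q1, funext fun z => (q2 z trivial).1, funext fun z => (q2 z trivial).2⟩

theorem pot : POT := fun _ _ _ _ _ _ _ _ hψ cψ hg cg => ⟨potT hψ cψ hg cg, potB hψ cψ hg cg⟩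

/-- the weak equation passes to locally uniform limits -/
theorem wk_lim {U : Set ℂ} (hU : IsOpen U) {u G : ℕ → ℂ → F} {u0 G0 : ℂ → F}
    (hu : ∀ j, ContinuousOn (u j) U) (hG : ∀ j, ContinuousOn (G j) U) (h : ∀ j, Wk U (u j) (G j))
    (tu : TendstoLocallyUniformlyOn u u0 atTop U) (tG : TendstoLocallyUniformlyOn G G0 atTop U) :
    Wk U u0 G0 := fun φ hφ cφ hs => by
  have key : ∀ {a : ℂ → ℂ} {v : ℕ → ℂ → F} {v0 : ℂ → F}, Continuous a → HasCompactSupport a →
      tsupport a ⊆ U → (∀ j, ContinuousOn (v j) U) → TendstoLocallyUniformlyOn v v0 atTop U →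
      Tendsto (fun j => ∫ z, a z • v j z) atTop (𝓝 (∫ z, a z • v0 z)) := by
    intro a v v0 ha ca sa hv tv
    have c0 : ContinuousOn v0 U := tv.continuousOn (Frequently.of_forall hv)
    have t := (tendstoLocallyUniformlyOn_iff_forall_isCompact hU).1 tv _ sa ca.isCompact
    have ia : Integrable fun z => ‖a z‖ := (ha.integrable_of_hasCompactSupport ca).norm
    rw [Metric.tendsto_nhds]
    intro ε hε
    have hI : 0 ≤ ∫ z, ‖a z‖ := integral_nonneg fun z => norm_nonneg _
    filter_upwards [Metric.tendstoUniformlyOn_iff.1 t (ε / ((∫ z, ‖a z‖) + 1)) (by positivity)]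
      with j hj
    rw [dist_eq_norm, ← integral_sub (int_cut hU ha ca sa (hv j)) (int_cut hU ha ca sa c0)]
    calc _ ≤ ∫ z, ‖a z‖ * (ε / ((∫ z, ‖a z‖) + 1)) := by
          refine norm_integral_le_of_norm_le (ia.mul_const _) (Eventually.of_forall fun z => ?_)
          by_cases hz : z ∈ tsupport a
          · refine smul_close le_rfl ?_
            rw [← dist_eq_norm, dist_comm]
            exact (hj z hz).le
          · simp [image_eq_zero_of_notMem_tsupport hz]
      _ < ε := by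
          rw [integral_mul_const, ← mul_div_assoc, div_lt_iff₀ (by positivity)]
          nlinarith
  have t1 := key (db_cont hφ) (db_cs cφ) ((db_ts φ).trans hs) hu tu
  have t2 := (key hφ.continuous cφ hs hG tG).neg
  simp only [fun j => h j φ hφ cφ hs] at t1
  exact tendsto_nhds_unique t1 t2

end Vale.Agent.P275CT
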