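import Vale.Agent.P275NA.Defs
import Vale.Agent.P030.H580.Pompeiu

/-!
P275 (helper54): convolution with kernels of the size of the Cauchy kernel.
-/

set_option linter.all false

open scoped Topology ComplexConjugate ContDiff Convolution Real
open Filter Set Complex Metric MeasureTheory
open Vale.Agent.P281Z.Hm Vale.Agent.P275NA

noncomputable section

namespace Vale.Agent.P275CT

variable {F : Type} [NormedAddCommGroup F] [NormedSpace ℝ F] [NormedSpace ℂ F]
  [IsScalarTower ℝ ℂ F]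

/-- convolution with a scalar kernel -/
def cK (k : ℂ → ℂ) (g : ℂ → F) (z : ℂ) : F := ∫ w : ℂ, k w • g (z - w)

/-- kernels like the Cauchy kernel -/
structure Kn (k : ℂ → ℂ) : Prop where
  ms : Measurable k
  nm : ∀ w, ‖k w‖ = ‖w‖⁻¹
  df : ∀ a b, a ≠ 0 → b ≠ 0 → ‖k a - k b‖ = ‖a - b‖ / (‖a‖ * ‖b‖)
  od : ∀ w, k (-w) = -k w

theorem norm_inv_sub (a b : ℂ) (ha : a ≠ 0) (hb : b ≠ 0) :
    ‖a⁻¹ - b⁻¹‖ = ‖a - b‖ / (‖a‖ * ‖b‖) := by
  rw [inv_sub_inv ha hb, norm_div, norm_mul, norm_sub_rev]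

theorem kn_inv : Kn fun w => w⁻¹ :=
  ⟨measurable_inv, fun w => norm_inv w, norm_inv_sub, fun w => inv_neg⟩

theorem kn_conj : Kn fun w => (conj w)⁻¹ := by
  refine ⟨(continuous_conj.measurable).inv, fun w => by simp, fun a b ha hb => ?_,
    fun w => by simp [inv_neg]⟩
  rw [norm_inv_sub _ _ (by simpa using ha) (by simpa using hb), ← map_sub]
  simp only [RCLike.norm_conj]

theorem cT_eq (g : ℂ → F) : cT g = fun z => ((π : ℂ)⁻¹) • cK (fun w => w⁻¹) g z := rfl

theorem cB_eq (g : ℂ → F) : cB g = fun z => ((π : ℂ)⁻¹) • cK (fun w => (conj w)⁻¹) g z := rfl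

theorem cK_conv (k : ℂ → ℂ) (g : ℂ → F) :
    cK k g = k ⋆[ContinuousLinearMap.lsmul ℝ ℂ, volume] g := by
  funext z
  simp [cK, convolution_def]

theorem cK_eq (k : ℂ → ℂ) (g : ℂ → F) (z : ℂ) : cK k g z = ∫ ξ, k (z - ξ) • g ξ := by
  rw [cK, ← integral_sub_left_eq_self (fun w => k w • g (z - w)) volume z]
  simp

theorem rk2 : Module.finrank ℝ ℂ = 2 := Complex.finrank_real_complex

theorem li_rpow {α : ℝ} (hα : α < 2) : LocallyIntegrable (fun w : ℂ => ‖w‖ ^ (-α)) volume := by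
  refine locallyIntegrable_of_norm_le_rpow (C := 1) (α := α) (by rw [rk2]; norm_num)
    (by rw [rk2]; exact_mod_cast hα) (Eventually.of_forall fun w => ?_)
    (by fun_prop : Measurable fun w : ℂ => ‖w‖ ^ (-α)).aestronglyMeasurable
  rw [one_mul, Real.norm_of_nonneg (by positivity)]

theorem Kn.li {k : ℂ → ℂ} (hk : Kn k) : LocallyIntegrable k volume := by
  refine locallyIntegrable_of_norm_le_rpow (C := 1) (α := 1) (by rw [rk2]; norm_num)
    (by rw [rk2]; norm_num) (Eventually.of_forall fun w => ?_) hk.ms.aestronglyMeasurable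
  rw [one_mul, hk.nm, Real.rpow_neg_one]

theorem li_inv : LocallyIntegrable (fun w : ℂ => ‖w‖⁻¹) volume := by
  have := li_rpow (α := 1) (by norm_num)
  simpa only [Real.rpow_neg_one] using this

theorem Kn.int {k : ℂ → ℂ} (hk : Kn k) {g : ℂ → F} (hg : Continuous g)
    (hc : HasCompactSupport g) (z : ℂ) : Integrable fun w => k w • g (z - w) :=
  hc.convolutionExists_right (ContinuousLinearMap.lsmul ℝ ℂ) hk.li hg z

theorem Kn.int' {k : ℂ → ℂ} (hk : Kn k) {g : ℂ → F} (hg : Continuous g)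
    (hc : HasCompactSupport g) (z : ℂ) : Integrable fun ξ => k (z - ξ) • g ξ := by
  have := (hk.int hg hc z).comp_sub_left z
  simpa using this

theorem Kn.cont {k : ℂ → ℂ} (hk : Kn k) {g : ℂ → F} (hg : Continuous g)
    (hc : HasCompactSupport g) : Continuous (cK k g) := by
  rw [cK_conv]
  exact hc.continuous_convolution_right _ hk.li hg

theorem Kn.cd {k : ℂ → ℂ} (hk : Kn k) {g : ℂ → F} {n : ℕ∞} (hg : ContDiff ℝ n g)
    (hc : HasCompactSupport g) : ContDiff ℝ n (cK k g) := by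
  rw [cK_conv]
  exact hc.contDiff_convolution_right _ hk.li hg

theorem Kn.fd {k : ℂ → ℂ} (hk : Kn k) {g : ℂ → F} (hg : ContDiff ℝ 1 g)
    (hc : HasCompactSupport g) (z v : ℂ) :
    fderiv ℝ (cK k g) z v = cK k (fun x => fderiv ℝ g x v) z := by
  rw [cK_conv, cK_conv, (hc.hasFDerivAt_convolution_right _ hk.li hg z).fderiv,
    convolution_precompR_apply _ hk.li (hc.fderiv ℝ) (hg.continuous_fderiv (by norm_num))]

theorem Kn.add {k : ℂ → ℂ} (hk : Kn k) {f g : ℂ → F} (hf : Continuous f)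
    (cf : HasCompactSupport f) (hg : Continuous g) (cg : HasCompactSupport g) (z : ℂ) :
    cK k (fun x => f x + g x) z = cK k f z + cK k g z := by
  simp only [cK, smul_add]
  exact integral_add (hk.int hf cf z) (hk.int hg cg z)

theorem Kn.sub {k : ℂ → ℂ} (hk : Kn k) {f g : ℂ → F} (hf : Continuous f)
    (cf : HasCompactSupport f) (hg : Continuous g) (cg : HasCompactSupport g) (z : ℂ) :
    cK k (fun x => f x - g x) z = cK k f z - cK k g z := by
  simp only [cK, smul_sub]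
  exact integral_sub (hk.int hf cf z) (hk.int hg cg z)

theorem cK_smul (k : ℂ → ℂ) (c : ℂ) (g : ℂ → F) (z : ℂ) :
    cK k (fun x => c • g x) z = c • cK k g z := by
  simp only [cK]
  rw [← integral_smul]
  exact integral_congr_ae (Eventually.of_forall fun w => smul_comm _ _ _)

theorem fd_cont {g : ℂ → F} (hg : ContDiff ℝ 1 g) (v : ℂ) : Continuous fun x => fderiv ℝ g x v :=
  (hg.continuous_fderiv (by norm_num)).clm_apply continuous_const

theorem fd_cs {g : ℂ → F} (hc : HasCompactSupport g) (v : ℂ) :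
    HasCompactSupport fun x => fderiv ℝ g x v := hc.fderiv_apply ℝ v

theorem db_cont {g : ℂ → F} (hg : ContDiff ℝ 1 g) : Continuous (db g) :=
  ((fd_cont hg _).add ((fd_cont hg _).const_smul I)).const_smul (2⁻¹ : ℂ)

theorem dz_cont {g : ℂ → F} (hg : ContDiff ℝ 1 g) : Continuous (dz g) :=
  ((fd_cont hg _).sub ((fd_cont hg _).const_smul I)).const_smul (2⁻¹ : ℂ)

theorem db_ts (g : ℂ → F) : tsupport (db g) ⊆ tsupport g := by
  refine subset_trans (closure_mono fun x hx => ?_) (tsupport_fderiv_subset ℝ)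
  intro h0
  exact hx (by simp [db, wb, h0])

theorem dz_ts (g : ℂ → F) : tsupport (dz g) ⊆ tsupport g := by
  refine subset_trans (closure_mono fun x hx => ?_) (tsupport_fderiv_subset ℝ)
  intro h0
  exact hx (by simp [dz, wd, h0])

theorem db_cs {g : ℂ → F} (hc : HasCompactSupport g) : HasCompactSupport (db g) :=
  hc.isCompact.of_isClosed_subset (isClosed_tsupport _) (db_ts g)

theorem dz_cs {g : ℂ → F} (hc : HasCompactSupport g) : HasCompactSupport (dz g) :=
  hc.isCompact.of_isClosed_subset (isClosed_tsupport _) (dz_ts g)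

theorem cs_smul {g : ℂ → F} (hc : HasCompactSupport g) (c : ℂ) :
    HasCompactSupport fun x => c • g x := hc.mono fun x hx h0 => hx (by simp [h0])

theorem Kn.db {k : ℂ → ℂ} (hk : Kn k) {g : ℂ → F} (hg : ContDiff ℝ 1 g)
    (hc : HasCompactSupport g) : db (cK k g) = cK k (db g) := by
  funext z
  show wb 1 (cK k g) z = cK k (fun x => (2⁻¹ : ℂ) •
    (fderiv ℝ g x 1 + I • fderiv ℝ g x (I • (1 : ℂ)))) z
  rw [cK_smul, hk.add (g := fun x => I • fderiv ℝ g x (I • (1 : ℂ))) (fd_cont hg _) (fd_cs hc _)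
    ((fd_cont hg _).const_smul I) (cs_smul (fd_cs hc _) I), cK_smul, wb, hk.fd hg hc, hk.fd hg hc]

theorem Kn.dz {k : ℂ → ℂ} (hk : Kn k) {g : ℂ → F} (hg : ContDiff ℝ 1 g)
    (hc : HasCompactSupport g) : dz (cK k g) = cK k (dz g) := by
  funext z
  show wd 1 (cK k g) z = cK k (fun x => (2⁻¹ : ℂ) •
    (fderiv ℝ g x 1 - I • fderiv ℝ g x (I • (1 : ℂ)))) z
  rw [cK_smul, hk.sub (g := fun x => I • fderiv ℝ g x (I • (1 : ℂ))) (fd_cont hg _) (fd_cs hc _)
    ((fd_cont hg _).const_smul I) (cs_smul (fd_cs hc _) I), cK_smul, wd, hk.fd hg hc, hk.fd hg hc]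

/-! ### bounds -/

theorem vol_cb {R : ℝ} (hR : 0 ≤ R) : volume.real (closedBall (0 : ℂ) R) = π * R ^ 2 := by
  rw [Measure.real, Complex.volume_closedBall]
  simp [ENNReal.toReal_ofReal hR, mul_comm]

theorem int_shift {ψ : ℂ → ℝ} (hψ : LocallyIntegrable ψ volume) (z : ℂ) (R : ℝ) :
    IntegrableOn (fun ξ => ψ (z - ξ)) (closedBall 0 R) := by
  have h1 : Integrable ((closedBall z R).indicator ψ) :=
    (integrable_indicator_iff measurableSet_closedBall).2
      (hψ.integrableOn_isCompact (isCompact_closedBall z R))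
  have h2 := h1.comp_sub_left z
  rw [← integrable_indicator_iff measurableSet_closedBall]
  refine h2.congr (Eventually.of_forall fun ξ => ?_)
  simp only [indicator, mem_closedBall, dist_eq_norm]
  simp

theorem int_shift_le {ψ : ℂ → ℝ} (h0 : ∀ w, 0 ≤ ψ w) (hψ : LocallyIntegrable ψ volume) {R c : ℝ}
    (hR : 0 ≤ R) (hc0 : 0 ≤ c) (hc : ∀ w, R ≤ ‖w‖ → ψ w ≤ c) (z : ℂ) :
    ∫ ξ in closedBall (0 : ℂ) R, ψ (z - ξ) ≤ (∫ w in ball (0 : ℂ) R, ψ w) + c * (π * R ^ 2) := by
  have h1 : Integrable ((ball (0 : ℂ) R).indicator ψ) :=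
    (integrable_indicator_iff measurableSet_ball).2
      ((hψ.integrableOn_isCompact (isCompact_closedBall 0 R)).mono_set ball_subset_closedBall)
  have h2 := h1.comp_sub_left z
  have h3 : IntegrableOn (fun _ : ℂ => c) (closedBall (0 : ℂ) R) :=
    integrableOn_const (measure_closedBall_lt_top).ne
  calc ∫ ξ in closedBall (0 : ℂ) R, ψ (z - ξ)
      ≤ ∫ ξ in closedBall (0 : ℂ) R, ((ball (0 : ℂ) R).indicator ψ (z - ξ) + c) := by
        refine setIntegral_mono (int_shift hψ z R) (h2.integrableOn.add h3) fun ξ => ?_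
        by_cases h : z - ξ ∈ ball (0 : ℂ) R
        · simp only [indicator_of_mem h]; linarith
        · simp only [indicator_of_notMem h, zero_add]
          exact hc _ (by simpa using h)
    _ = (∫ ξ in closedBall (0 : ℂ) R, (ball (0 : ℂ) R).indicator ψ (z - ξ)) + c * (π * R ^ 2) := by
        rw [integral_add h2.integrableOn h3, setIntegral_const, vol_cb hR, smul_eq_mul, mul_comm]
    _ ≤ _ := by
        gcongr
        refine (setIntegral_le_integral h2 (Eventually.of_forall fun ξ =>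
          indicator_nonneg (fun w _ => h0 w) _)).trans (le_of_eq ?_)
        rw [integral_sub_left_eq_self ((ball (0 : ℂ) R).indicator ψ) volume z,
          integral_indicator measurableSet_ball]

theorem int_inv {R : ℝ} (hR : 0 ≤ R) : ∫ w in ball (0 : ℂ) R, ‖w‖⁻¹ = 2 * π * R := by
  have h := integral_fun_norm_addHaar (μ := (volume : Measure ℂ))
    ((Iio R).indicator fun y : ℝ => y⁻¹)
  have e1 : (fun x : ℂ => (Iio R).indicator (fun y : ℝ => y⁻¹) ‖x‖) =
      (ball (0 : ℂ) R).indicator fun w => ‖w‖⁻¹ := by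
    funext x
    simp only [indicator, mem_Iio, mem_ball_zero_iff]
  have e2 : ∫ y in Ioi (0 : ℝ), y ^ (2 - 1) • (Iio R).indicator (fun y : ℝ => y⁻¹) y = R := by
    rw [setIntegral_congr_fun measurableSet_Ioi (g := (Iio R).indicator fun _ => (1 : ℝ))]
    · rw [setIntegral_indicator measurableSet_Iio, Ioi_inter_Iio, setIntegral_const]
      simp [Measure.real, hR]
    · intro y hy
      have : y ≠ 0 := ne_of_gt hy
      by_cases h : y ∈ Iio R
      · simp [indicator_of_mem h, this]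
      · simp [indicator_of_notMem h]
  rw [e1, integral_indicator measurableSet_ball, rk2, e2, Measure.real, Complex.volume_ball] at h
  rw [h]
  simp
  ring

theorem cK_res (k : ℂ → ℂ) {g : ℂ → F} {R : ℝ} (hs : ∀ z, R < ‖z‖ → g z = 0) (z : ℂ) :
    cK k g z = ∫ ξ in closedBall (0 : ℂ) R, k (z - ξ) • g ξ := by
  rw [cK_eq, setIntegral_eq_integral_of_forall_compl_eq_zero]
  intro ξ hξ
  rw [hs ξ (by simpa using hξ), smul_zero]

theorem cs_of {g : ℂ → F} {R : ℝ} (hs : ∀ z, R < ‖z‖ → g z = 0) : HasCompactSupport g :=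
  HasCompactSupport.intro (isCompact_closedBall 0 R) fun x hx => hs x (by simpa using hx)

theorem ex_R {g : ℂ → F} (hc : HasCompactSupport g) : ∃ R, 0 < R ∧ ∀ z, R < ‖z‖ → g z = 0 := by
  obtain ⟨R, hR, h⟩ := hc.isCompact.isBounded.exists_pos_norm_le
  exact ⟨R, hR, fun z hz => image_eq_zero_of_notMem_tsupport fun h' => (h z h').not_gt hz⟩

theorem Kn.bound {k : ℂ → ℂ} (hk : Kn k) {g : ℂ → F} {R M : ℝ} (hR : 0 < R)
    (hs : ∀ z, R < ‖z‖ → g z = 0) (hM : ∀ z, ‖g z‖ ≤ M) (z : ℂ) :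
    ‖cK k g z‖ ≤ 3 * π * R * M := by
  have hM0 : 0 ≤ M := (norm_nonneg _).trans (hM 0)
  rw [cK_res k hs]
  have h1 := int_shift_le (ψ := fun w => ‖w‖⁻¹) (fun w => by positivity) li_inv hR.le
    (c := R⁻¹) (by positivity) (fun w hw => inv_anti₀ hR hw) z
  rw [int_inv hR.le] at h1
  calc _ ≤ ∫ ξ in closedBall (0 : ℂ) R, ‖z - ξ‖⁻¹ * M := by
        refine norm_integral_le_of_norm_le ((int_shift li_inv z R).mul_const M)
          (Eventually.of_forall fun ξ => ?_)
        rw [norm_smul, hk.nm]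
        gcongr
        exact hM ξ
    _ ≤ (2 * π * R + R⁻¹ * (π * R ^ 2)) * M := by
        rw [integral_mul_const]
        gcongr
    _ = _ := by field_simp; ring

theorem half_le {a b d : ℝ} (ha : 0 < a) (hab : a ≤ b) (hd0 : 0 ≤ d) (hd : d ≤ a + b) :
    d / (a * b) ≤ 2 * √d * a ^ (-(3 / 2 : ℝ)) := by
  have hb : 0 < b := ha.trans_le hab
  have e : a ^ (-(3 / 2 : ℝ)) = (a * √a)⁻¹ := by
    rw [Real.rpow_neg ha.le, show (3 / 2 : ℝ) = 1 + 1 / 2 by norm_num, Real.rpow_add ha,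
      Real.rpow_one, Real.sqrt_eq_rpow]
  have h1 : √d * √a ≤ 2 * b := by
    rw [← Real.sqrt_mul hd0]
    refine Real.sqrt_le_iff.2 ⟨by positivity, ?_⟩
    nlinarith
  have hsa : 0 < √a := Real.sqrt_pos.2 ha
  rw [e, ← div_eq_mul_inv, div_le_div_iff₀ (by positivity) (by positivity)]
  have h2 : d = √d * √d := (Real.mul_self_sqrt hd0).symm
  calc d * (a * √a) = √d * a * (√d * √a) := by rw [h2, Real.sqrt_mul_self (Real.sqrt_nonneg d)]; ring
    _ ≤ √d * a * (2 * b) := by gcongr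
    _ = _ := by ring

theorem Kn.df_le {k : ℂ → ℂ} (hk : Kn k) {a b : ℂ} (ha : a ≠ 0) (hb : b ≠ 0) :
    ‖k a - k b‖ ≤ 2 * √‖a - b‖ * (‖a‖ ^ (-(3 / 2 : ℝ)) + ‖b‖ ^ (-(3 / 2 : ℝ))) := by
  rw [hk.df a b ha hb, mul_add]
  have hd := norm_sub_le a b
  rcases le_total ‖a‖ ‖b‖ with h | h
  · exact (half_le (norm_pos_iff.2 ha) h (norm_nonneg _) hd).trans
      (le_add_of_nonneg_right (by positivity))
  · rw [mul_comm ‖a‖]
    exact (half_le (norm_pos_iff.2 hb) h (norm_nonneg _) (by linarith)).trans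
      (le_add_of_nonneg_left (by positivity))

/-- the constant of the Hoelder estimate -/
def hC (R : ℝ) : ℝ :=
  4 * ((∫ w in ball (0 : ℂ) R, ‖w‖ ^ (-(3 / 2 : ℝ))) + R ^ (-(3 / 2 : ℝ)) * (π * R ^ 2))

theorem hC_nonneg {R : ℝ} (hR : 0 < R) : 0 ≤ hC R := by
  have : 0 ≤ ∫ w in ball (0 : ℂ) R, ‖w‖ ^ (-(3 / 2 : ℝ)) :=
    integral_nonneg fun w => by positivity
  unfold hC
  positivity

theorem Kn.holder {k : ℂ → ℂ} (hk : Kn k) {g : ℂ → F} (hg : Continuous g) {R M : ℝ} (hR : 0 < R)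
    (hs : ∀ z, R < ‖z‖ → g z = 0) (hM : ∀ z, ‖g z‖ ≤ M) (z z' : ℂ) :
    ‖cK k g z - cK k g z'‖ ≤ hC R * M * √‖z - z'‖ := by
  have hM0 : 0 ≤ M := (norm_nonneg _).trans (hM 0)
  have li := li_rpow (α := 3 / 2) (by norm_num)
  have h1 := fun z => int_shift_le (ψ := fun w : ℂ => ‖w‖ ^ (-(3 / 2 : ℝ)))
    (fun w => by positivity) li hR.le (c := R ^ (-(3 / 2 : ℝ))) (by positivity)
    (fun w hw => Real.rpow_le_rpow_of_nonpos hR hw (by norm_num)) z
  have hne : ∀ x : ℂ, ∀ᵐ w : ℂ ∂(volume.restrict (closedBall (0 : ℂ) R)), w ≠ x := fun x =>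
    ae_restrict_of_ae (by rw [ae_iff]; simp)
  rw [cK_res k hs, cK_res k hs, ← integral_sub (hk.int' hg (cs_of hs) z).integrableOn
    (hk.int' hg (cs_of hs) z').integrableOn]
  calc _ ≤ ∫ ξ in closedBall (0 : ℂ) R, (2 * √‖z - z'‖ * M) *
        (‖z - ξ‖ ^ (-(3 / 2 : ℝ)) + ‖z' - ξ‖ ^ (-(3 / 2 : ℝ))) := by
        refine norm_integral_le_of_norm_le (((int_shift li z R).add (int_shift li z' R)).const_mul _) ?_
        filter_upwards [hne z, hne z'] with ξ h h'
        have q := hk.df_le (sub_ne_zero.2 h.symm) (sub_ne_zero.2 h'.symm)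
        rw [sub_sub_sub_cancel_right] at q
        rw [← sub_smul, norm_smul]
        calc _ ≤ (2 * √‖z - z'‖ * (‖z - ξ‖ ^ (-(3 / 2 : ℝ)) + ‖z' - ξ‖ ^ (-(3 / 2 : ℝ)))) * M := by
              gcongr
              exact hM ξ
          _ = _ := by ring
    _ ≤ (2 * √‖z - z'‖ * M) * (hC R / 4 + hC R / 4) := by
        rw [integral_const_mul, integral_add (int_shift li z R) (int_shift li z' R)]
        have e : hC R / 4 = (∫ w in ball (0 : ℂ) R, ‖w‖ ^ (-(3 / 2 : ℝ))) +
            R ^ (-(3 / 2 : ℝ)) * (π * R ^ 2) := by unfold hC; ring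
        rw [e]
        gcongr
        exacts [h1 z, h1 z']
    _ = _ := by ring

/-! ### the transposed operator -/

theorem Kn.adj [CompleteSpace F] {k : ℂ → ℂ} (hk : Kn k) {a : ℂ → ℂ} {g : ℂ → F}
    (ha : Continuous a) (ca : HasCompactSupport a) (hg : Continuous g) (cg : HasCompactSupport g) :
    ∫ z, a z • cK k g z = -∫ ξ, cK k a ξ • g ξ := by
  obtain ⟨R1, h1, s1⟩ := ex_R ca
  obtain ⟨R2, h2, s2⟩ := ex_R cg
  obtain ⟨A, hA⟩ := ca.exists_bound_of_continuous ha
  have i1 : Integrable ((closedBall (0 : ℂ) (R1 + R2)).indicator fun w => ‖w‖⁻¹) :=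
    (integrable_indicator_iff measurableSet_closedBall).2
      (li_inv.integrableOn_isCompact (isCompact_closedBall _ _))
  have i2 : Integrable fun ξ => ‖g ξ‖ := (hg.integrable_of_hasCompactSupport cg).norm
  have i3 := (i2.convolution_integrand (ContinuousLinearMap.mul ℝ ℝ) i1).const_mul A
  have hI : Integrable (Function.uncurry fun z ξ : ℂ => (a z * k (z - ξ)) • g ξ)
      (volume.prod volume) := by
    refine i3.mono' ?_ (Eventually.of_forall fun p => ?_)
    · refine AEStronglyMeasurable.smul ?_ (hg.comp continuous_snd).aestronglyMeasurable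
      exact ((ha.measurable.comp measurable_fst).mul
        (hk.ms.comp (measurable_fst.sub measurable_snd))).aestronglyMeasurable
    · obtain ⟨z, ξ⟩ := p
      simp only [Function.uncurry_apply_pair, ContinuousLinearMap.mul_apply']
      have hA0 : 0 ≤ A := (norm_nonneg _).trans (hA 0)
      by_cases h : z - ξ ∈ closedBall (0 : ℂ) (R1 + R2)
      · rw [indicator_of_mem h, norm_smul, norm_mul, hk.nm]
        calc _ ≤ A * ‖z - ξ‖⁻¹ * ‖g ξ‖ := by gcongr; exact hA z
          _ = _ := by ring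
      · rw [indicator_of_notMem h, mul_zero, mul_zero]
        have h' : R1 + R2 < ‖z - ξ‖ := by simpa using h
        have := norm_sub_le z ξ
        rcases lt_or_ge R1 ‖z‖ with hz | hz
        · simp [s1 z hz]
        · simp [s2 ξ (by linarith)]
  have e1 : ∀ z, a z • cK k g z = ∫ ξ, (a z * k (z - ξ)) • g ξ := fun z => by
    rw [cK_eq, ← integral_smul]
    simp only [mul_smul]
  have e2 : ∀ ξ, ∫ z, (a z * k (z - ξ)) • g ξ = -(cK k a ξ • g ξ) := fun ξ => by
    rw [integral_smul_const, cK_eq, ← neg_smul, ← integral_neg]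
    refine congrArg (· • g ξ) (integral_congr_ae (Eventually.of_forall fun z => ?_))
    simp only [smul_eq_mul]
    rw [← neg_sub ξ z, hk.od]
    ring
  simp only [e1]
  rw [integral_integral_swap hI]
  simp only [e2]
  rw [integral_neg]

end Vale.Agent.P275CT
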