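import Vale.Agent.P275CT.CT

/-!
P275 (helper54): Weyl's lemma and potentials, blocks WEYL and POT.
-/

set_option linter.all false

open scoped Topology ComplexConjugate ContDiff Real
open Filter Set Complex Metric MeasureTheory
open Vale.Agent.P281Z.Hm Vale.Agent.P275NA

noncomputable section

namespace Vale.Agent.P275CT

variable {F : Type} [NormedAddCommGroup F] [NormedSpace ℝ F] [NormedSpace ℂ F]
  [IsScalarTower ℝ ℂ F]

theorem ev_zero {a : ℂ → ℂ} {u : ℂ → F} {x : ℂ} (hx : x ∉ tsupport a) :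
    (fun z => a z • u z) =ᶠ[𝓝 x] fun _ => 0 :=
  (notMem_tsupport_iff_eventuallyEq.1 hx).mono fun y hy => by simp [hy]

theorem cont_cut {U : Set ℂ} (hU : IsOpen U) {a : ℂ → ℂ} {u : ℂ → F} (ha : Continuous a)
    (hs : tsupport a ⊆ U) (hu : ContinuousOn u U) : Continuous fun z => a z • u z := by
  refine continuous_iff_continuousAt.2 fun x => ?_
  by_cases hx : x ∈ tsupport a
  · exact ha.continuousAt.smul (hu.continuousAt (hU.mem_nhds (hs hx)))
  · exact continuousAt_const.congr (ev_zero hx).symm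

theorem cda_smul {a : ℂ → ℂ} {u : ℂ → F} {n : WithTop ℕ∞} {x : ℂ} (ha : ContDiffAt ℝ n a x)
    (hu : ContDiffAt ℝ n u x) : ContDiffAt ℝ n (fun z => a z • u z) x := ha.smul hu

theorem cd_cut {U : Set ℂ} (hU : IsOpen U) {a : ℂ → ℂ} {u : ℂ → F} {n : WithTop ℕ∞}
    (ha : ContDiff ℝ n a) (hs : tsupport a ⊆ U) (hu : ContDiffOn ℝ n u U) :
    ContDiff ℝ n fun z => a z • u z := by
  refine contDiff_iff_contDiffAt.2 fun x => ?_
  by_cases hx : x ∈ tsupport a
  · exact cda_smul ha.contDiffAt (hu.contDiffAt (hU.mem_nhds (hs hx)))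
  · exact contDiffAt_const.congr_of_eventuallyEq (ev_zero hx)

theorem cs_cut {a : ℂ → ℂ} (ca : HasCompactSupport a) (u : ℂ → F) :
    HasCompactSupport fun z => a z • u z := ca.mono fun x hx h0 => hx (by simp [h0])

theorem int_cut {U : Set ℂ} (hU : IsOpen U) {a : ℂ → ℂ} {u : ℂ → F} (ha : Continuous a)
    (ca : HasCompactSupport a) (hs : tsupport a ⊆ U) (hu : ContinuousOn u U) :
    Integrable fun z => a z • u z :=
  (cont_cut hU ha hs hu).integrable_of_hasCompactSupport (cs_cut ca u)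

/-- smooth cut-off functions -/
theorem ex_cut (c : ℂ) {r R : ℝ} (hr : 0 < r) (hR : r < R) : ∃ b : ℂ → ℝ, ContDiff ℝ ∞ b ∧
    (∀ z, 0 ≤ b z ∧ b z ≤ 1) ∧ (∀ z ∈ closedBall c r, b z = 1) ∧ tsupport b = closedBall c R := by
  let φ : ContDiffBump c := ⟨r, R, hr, hR⟩
  exact ⟨φ, φ.contDiff, fun z => ⟨φ.nonneg, φ.le_one⟩, fun z hz => φ.one_of_mem_closedBall hz,
    φ.tsupport_eq⟩

theorem ts_ofReal (b : ℂ → ℝ) : tsupport (fun z => (b z : ℂ)) = tsupport b := by
  unfold tsupport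
  refine congrArg closure ?_
  ext z
  simp

theorem ex_cutC (c : ℂ) {r R : ℝ} (hr : 0 < r) (hR : r < R) : ∃ η : ℂ → ℂ, ContDiff ℝ ∞ η ∧
    HasCompactSupport η ∧ (∀ z, ‖η z‖ ≤ 1) ∧ (∀ z ∈ closedBall c r, η z = 1) ∧
    tsupport η = closedBall c R := by
  obtain ⟨b, h1, h2, h3, h4⟩ := ex_cut c hr hR
  have e : tsupport (fun z => (b z : ℂ)) = closedBall c R := (ts_ofReal b).trans h4
  refine ⟨fun z => (b z : ℂ), ofRealCLM.contDiff.comp h1, ?_, fun z => ?_,
    fun z hz => by simp [h3 z hz], e⟩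
  · rw [HasCompactSupport, e]
    exact isCompact_closedBall c R
  · rw [norm_real, Real.norm_of_nonneg (h2 z).1]
    exact (h2 z).2

theorem db_one {η : ℂ → ℂ} {c z : ℂ} {r : ℝ} (h : ∀ z ∈ closedBall c r, η z = 1)
    (hz : z ∈ ball c r) : db η z = 0 := by
  have e : η =ᶠ[𝓝 z] fun _ => 1 :=
    mem_of_superset (isOpen_ball.mem_nhds hz) fun y hy => h y (ball_subset_closedBall hy)
  exact (wb_congr e 1).trans (wb_const _ _ _)

theorem dz_one {η : ℂ → ℂ} {c z : ℂ} {r : ℝ} (h : ∀ z ∈ closedBall c r, η z = 1)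
    (hz : z ∈ ball c r) : dz η z = 0 := by
  have e : η =ᶠ[𝓝 z] fun _ => 1 :=
    mem_of_superset (isOpen_ball.mem_nhds hz) fun y hy => h y (ball_subset_closedBall hy)
  exact (wd_congr e 1).trans (wd_const _ _ _)

/-! ### integration by parts -/

theorem int_fd {f : ℂ → F} (hf : ContDiff ℝ 1 f) (cf : HasCompactSupport f) (v : ℂ) :
    ∫ z, fderiv ℝ f z v = 0 := by
  have h := integral_smul_fderiv_eq_neg_fderiv_smul_of_integrable (μ := (volume : Measure ℂ))
    (f := fun _ => (1 : ℝ)) (g := f) (v := v) (by simp)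
    (by simpa using (fd_cont hf v).integrable_of_hasCompactSupport (fd_cs cf v))
    (by simpa using hf.continuous.integrable_of_hasCompactSupport cf)
    (fun x _ => differentiableAt_const _) (fun x _ => hf.differentiable (by norm_num) x)
  simpa using h

theorem int_db {f : ℂ → F} (hf : ContDiff ℝ 1 f) (cf : HasCompactSupport f) :
    ∫ z, db f z = 0 := by
  have i := fun v => (fd_cont hf v).integrable_of_hasCompactSupport (μ := volume) (fd_cs cf v)
  show ∫ z, (2⁻¹ : ℂ) • (fderiv ℝ f z 1 + I • fderiv ℝ f z (I • (1 : ℂ))) = 0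
  rw [integral_smul, integral_add (g := fun z => I • fderiv ℝ f z (I • (1 : ℂ))) (i _)
    ((i _).smul I), integral_smul, int_fd hf cf, int_fd hf cf]
  simp

theorem int_dz {f : ℂ → F} (hf : ContDiff ℝ 1 f) (cf : HasCompactSupport f) :
    ∫ z, dz f z = 0 := by
  have i := fun v => (fd_cont hf v).integrable_of_hasCompactSupport (μ := volume) (fd_cs cf v)
  show ∫ z, (2⁻¹ : ℂ) • (fderiv ℝ f z 1 - I • fderiv ℝ f z (I • (1 : ℂ))) = 0
  rw [integral_smul, integral_sub (g := fun z => I • fderiv ℝ f z (I • (1 : ℂ))) (i _)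
    ((i _).smul I), integral_smul, int_fd hf cf, int_fd hf cf]
  simp

theorem fd_contOn {U : Set ℂ} (hU : IsOpen U) {u : ℂ → F} {n : WithTop ℕ∞}
    (hu : ContDiffOn ℝ (n + 1) u U) (v : ℂ) : ContDiffOn ℝ n (fun z => fderiv ℝ u z v) U :=
  (hu.fderiv_of_isOpen hU le_rfl).clm_apply contDiffOn_const

theorem cdo_csmul {U : Set ℂ} {g : ℂ → F} {n : WithTop ℕ∞} (c : ℂ) (hg : ContDiffOn ℝ n g U) :
    ContDiffOn ℝ n (fun x => c • g x) U :=
  ((c • ContinuousLinearMap.id ℂ F).restrictScalars ℝ).contDiff.comp_contDiffOn hg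

theorem db_cdo {U : Set ℂ} (hU : IsOpen U) {u : ℂ → F} {n : WithTop ℕ∞}
    (hu : ContDiffOn ℝ (n + 1) u U) : ContDiffOn ℝ n (db u) U :=
  cdo_csmul _ ((fd_contOn hU hu _).add (cdo_csmul I (fd_contOn hU hu _)))

theorem dz_cdo {U : Set ℂ} (hU : IsOpen U) {u : ℂ → F} {n : WithTop ℕ∞}
    (hu : ContDiffOn ℝ (n + 1) u U) : ContDiffOn ℝ n (dz u) U :=
  cdo_csmul _ ((fd_contOn hU hu _).sub (cdo_csmul I (fd_contOn hU hu _)))

theorem db_contOn {U : Set ℂ} (hU : IsOpen U) {u : ℂ → F} (hu : ContDiffOn ℝ 1 u U) :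
    ContinuousOn (db u) U := (db_cdo (n := 0) hU (by simpa using hu)).continuousOn

theorem dz_contOn {U : Set ℂ} (hU : IsOpen U) {u : ℂ → F} (hu : ContDiffOn ℝ 1 u U) :
    ContinuousOn (dz u) U := (dz_cdo (n := 0) hU (by simpa using hu)).continuousOn

theorem db_cut {U : Set ℂ} (hU : IsOpen U) {a : ℂ → ℂ} {u : ℂ → F} (ha : ContDiff ℝ 1 a)
    (hs : tsupport a ⊆ U) (hu : ContDiffOn ℝ 1 u U) (z : ℂ) :
    db (fun z => a z • u z) z = db a z • u z + a z • db u z := by
  by_cases hz : z ∈ tsupport a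
  · exact wb_smul (ha.differentiable (by norm_num) z)
      ((hu.contDiffAt (hU.mem_nhds (hs hz))).differentiableAt (by norm_num)) 1
  · rw [image_eq_zero_of_notMem_tsupport hz,
      image_eq_zero_of_notMem_tsupport fun h => hz (db_ts a h)]
    simpa using (wb_congr (ev_zero (u := u) hz) 1)

theorem dz_cut {U : Set ℂ} (hU : IsOpen U) {a : ℂ → ℂ} {u : ℂ → F} (ha : ContDiff ℝ 1 a)
    (hs : tsupport a ⊆ U) (hu : ContDiffOn ℝ 1 u U) (z : ℂ) :
    dz (fun z => a z • u z) z = dz a z • u z + a z • dz u z := by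
  by_cases hz : z ∈ tsupport a
  · exact wd_smul (ha.differentiable (by norm_num) z)
      ((hu.contDiffAt (hU.mem_nhds (hs hz))).differentiableAt (by norm_num)) 1
  · rw [image_eq_zero_of_notMem_tsupport hz,
      image_eq_zero_of_notMem_tsupport fun h => hz (dz_ts a h)]
    simpa using (wd_congr (ev_zero (u := u) hz) 1)

/-- integration by parts for `db` -/
theorem wk_db {U : Set ℂ} (hU : IsOpen U) {u : ℂ → F} (hu : ContDiffOn ℝ 1 u U) :
    Wk U u (db u) := fun φ hφ cφ hs => by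
  have h := int_db (cd_cut hU hφ hs hu) (cs_cut cφ u)
  simp only [db_cut hU hφ hs hu] at h
  rw [integral_add (int_cut hU (db_cont hφ) (db_cs cφ) ((db_ts φ).trans hs) hu.continuousOn)
    (int_cut hU hφ.continuous cφ hs (db_contOn hU hu))] at h
  exact eq_neg_of_add_eq_zero_left h

/-- integration by parts for `dz` -/
theorem wk_dz {U : Set ℂ} (hU : IsOpen U) {u : ℂ → F} (hu : ContDiffOn ℝ 1 u U) {φ : ℂ → ℂ}
    (hφ : ContDiff ℝ 1 φ) (cφ : HasCompactSupport φ) (hs : tsupport φ ⊆ U) :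
    ∫ z, dz φ z • u z = -∫ z, φ z • dz u z := by
  have h := int_dz (cd_cut hU hφ hs hu) (cs_cut cφ u)
  simp only [dz_cut hU hφ hs hu] at h
  rw [integral_add (int_cut hU (dz_cont hφ) (dz_cs cφ) ((dz_ts φ).trans hs) hu.continuousOn)
    (int_cut hU hφ.continuous cφ hs (dz_contOn hU hu))] at h
  exact eq_neg_of_add_eq_zero_left h

theorem wk_mono {U V : Set ℂ} {u G : ℂ → F} (h : Wk U u G) (hV : V ⊆ U) : Wk V u G :=
  fun φ h1 h2 h3 => h φ h1 h2 (h3.trans hV)

theorem int_cut_congr {U : Set ℂ} {a : ℂ → ℂ} {u v : ℂ → F} (hs : tsupport a ⊆ U)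
    (h : EqOn u v U) : ∫ z, a z • u z = ∫ z, a z • v z := by
  refine integral_congr_ae (Eventually.of_forall fun z => ?_)
  by_cases hz : z ∈ tsupport a
  · simp only [h (hs hz)]
  · simp only [image_eq_zero_of_notMem_tsupport hz, zero_smul]

theorem wk_congr {U : Set ℂ} {u G u' G' : ℂ → F} (h : Wk U u G) (h1 : EqOn u' u U)
    (h2 : EqOn G' G U) : Wk U u' G' := fun φ hφ cφ hs => by
  rw [int_cut_congr ((db_ts φ).trans hs) h1, int_cut_congr hs h2]
  exact h φ hφ cφ hs

/-! ### the representation formula -/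

theorem eq_of_test [CompleteSpace F] {f g : ℂ → F} (hf : Continuous f) (hg : Continuous g)
    (h : ∀ ψ : ℂ → ℂ, ContDiff ℝ 1 ψ → HasCompactSupport ψ → ∫ z, ψ z • f z = ∫ z, ψ z • g z) :
    f = g := by
  refine (hf.ae_eq_iff_eq volume hg).1 (ae_eq_of_integral_contDiff_smul_eq hf.locallyIntegrable
    hg.locallyIntegrable fun b hb cb => ?_)
  have := h (fun z => (b z : ℂ)) (ofRealCLM.contDiff.comp (hb.of_le (by exact_mod_cast le_top)))
    (cb.mono fun x hx h0 => hx (by simp [h0]))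
  simpa only [← rsmul] using this

theorem rep [CompleteSpace F] {U : Set ℂ} (hU : IsOpen U) {u G : ℂ → F} (hu : ContinuousOn u U)
    (hG : ContinuousOn G U) (h : Wk U u G) {η : ℂ → ℂ} (hη : ContDiff ℝ 1 η)
    (cη : HasCompactSupport η) (hs : tsupport η ⊆ U) (z : ℂ) :
    η z • u z = cT (fun z => db η z • u z) z + cT (fun z => η z • G z) z := by
  have c1 := cont_cut hU (db_cont hη) ((db_ts η).trans hs) hu
  have c2 := cont_cut hU hη.continuous hs hG
  have s1 := cs_cut (db_cs cη) u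
  have s2 := cs_cut cη G
  rw [← cT_add c1 s1 c2 s2]
  refine congrFun (eq_of_test (cont_cut hU hη.continuous hs hu) (cT_cont (c1.add c2) (s1.add s2))
    fun ψ hψ cψ => ?_) z
  have hT : ContDiff ℝ 1 (cT ψ) := cT_cd (n := 1) hψ cψ
  have h1 := h (fun z => η z • cT ψ z) (hη.smul hT) (cs_cut cη _)
    ((tsupport_smul_subset_left _ _).trans hs)
  have e : ∀ z, db (fun z => η z • cT ψ z) z • u z =
      cT ψ z • db η z • u z + ψ z • η z • u z := fun z => by
    rw [db_cut isOpen_univ hη (subset_univ _) hT.contDiffOn, db_cT hψ cψ]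
    simp only [smul_eq_mul, add_smul, smul_smul, mul_comm]
  have e2 : ∀ z, (η z • cT ψ z) • G z = cT ψ z • η z • G z := fun z => by
    simp only [smul_eq_mul, smul_smul, mul_comm]
  have i1 : Integrable fun z => cT ψ z • db η z • u z :=
    (hT.continuous.smul c1).integrable_of_hasCompactSupport s1.smul_left
  have i2 : Integrable fun z => cT ψ z • η z • G z :=
    (hT.continuous.smul c2).integrable_of_hasCompactSupport s2.smul_left
  have i3 : Integrable fun z => ψ z • η z • u z :=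
    (hψ.continuous.smul (cont_cut hU hη.continuous hs hu)).integrable_of_hasCompactSupport
      (cs_cut cψ _)
  simp only [e, e2] at h1
  rw [integral_add i1 i3] at h1
  have h2 := cT_adj hψ.continuous cψ (c1.add c2) (s1.add s2)
  refine Eq.trans ?_ h2.symm
  simp only [Pi.add_apply, smul_add]
  rw [integral_add i1 i2, neg_add, ← h1]
  abel

/-! ### approximation -/

theorem approx {g : ℂ → F} (hg : Continuous g) : ∃ s : ℕ → ℂ → F, ∀ j, ContDiff ℝ ∞ (s j) ∧
    (∀ z, ‖s j z - g z‖ ≤ 1 / ((j : ℝ) + 1)) ∧ ∀ z, g z = 0 → s j z = 0 := by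
  have h := fun j : ℕ => hg.exists_contDiff_approx ⊤ (ε := fun _ => 1 / ((j : ℝ) + 1))
    continuous_const fun _ => by positivity
  choose s h1 h2 h3 using h
  refine ⟨s, fun j => ⟨h1 j, fun z => ?_, fun z hz => ?_⟩⟩
  · rw [← dist_eq_norm]
    exact (h2 j z).le
  · by_contra h0
    exact h3 j h0 hz

theorem tu_of {X : Type} {G : Type} [NormedAddCommGroup G] {f : ℕ → X → G} {g : X → G} (K : ℝ)
    (h : ∀ j z, ‖f j z - g z‖ ≤ K * (1 / ((j : ℝ) + 1))) : TendstoUniformly f g atTop := by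
  refine Metric.tendstoUniformly_iff.2 fun ε hε => ?_
  have t : Tendsto (fun j : ℕ => K * (1 / ((j : ℝ) + 1))) atTop (𝓝 (K * 0)) :=
    tendsto_one_div_add_atTop_nhds_zero_nat.const_mul K
  rw [mul_zero] at t
  filter_upwards [t.eventually (gt_mem_nhds hε)] with j hj z
  rw [dist_comm, dist_eq_norm]
  exact (h j z).trans_lt hj

theorem cT_close {f g : ℂ → F} (hf : Continuous f) (hg : Continuous g) {R M : ℝ} (hR : 0 < R)
    (sf : ∀ z, R < ‖z‖ → f z = 0) (sg : ∀ z, R < ‖z‖ → g z = 0) (h : ∀ z, ‖f z - g z‖ ≤ M)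
    (z : ℂ) : ‖cT f z - cT g z‖ ≤ 3 * R * M := by
  rw [← cT_sub hf (cs_of sf) hg (cs_of sg)]
  exact cT_bound hR (fun z hz => by rw [sf z hz, sg z hz, sub_zero]) h z

theorem cB_close {f g : ℂ → F} (hf : Continuous f) (hg : Continuous g) {R M : ℝ} (hR : 0 < R)
    (sf : ∀ z, R < ‖z‖ → f z = 0) (sg : ∀ z, R < ‖z‖ → g z = 0) (h : ∀ z, ‖f z - g z‖ ≤ M)
    (z : ℂ) : ‖cB f z - cB g z‖ ≤ 3 * R * M := by
  rw [← cB_sub hf (cs_of sf) hg (cs_of sg)]
  exact cB_bound hR (fun z hz => by rw [sf z hz, sg z hz, sub_zero]) h z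

theorem hol_of_db {f : ℂ → F} {z : ℂ} (hf : DifferentiableAt ℝ f z) (h : db f z = 0) :
    DifferentiableAt ℂ f z :=
  hol_of_wb hf fun v => by
    have := wb_smulv v f z 1
    rw [smul_eq_mul, mul_one] at this
    rw [this, show wb 1 f z = 0 from h, smul_zero]

/-- the Cauchy transform is holomorphic off the support -/
theorem cT_hol [CompleteSpace F] {g : ℂ → F} (hg : Continuous g) (cg : HasCompactSupport g)
    {V : Set ℂ} (hV : IsOpen V) (h0 : ∀ z ∈ V, g z = 0) : DifferentiableOn ℂ (cT g) V := by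
  obtain ⟨R, hR, hs⟩ := ex_R cg
  obtain ⟨s, h⟩ := approx hg
  have ss : ∀ j z, R < ‖z‖ → s j z = 0 := fun j z hz => (h j).2.2 z (hs z hz)
  have h1 : ∀ j, ContDiff ℝ 1 (s j) := fun j => (h j).1.of_le (by exact_mod_cast le_top)
  have t : TendstoUniformly (fun j => cT (s j)) (cT g) atTop :=
    tu_of (3 * R) fun j z => cT_close (h1 j).continuous hg hR (ss j) hs (h j).2.1 z
  refine t.tendstoLocallyUniformly.tendstoLocallyUniformlyOn.differentiableOn
    (Eventually.of_forall fun j z hz => (hol_of_db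
      ((cT_cd (n := 1) (h1 j) (cs_of (ss j))).differentiable (by norm_num) z) ?_).differentiableWithinAt) hV
  rw [db_cT (h1 j) (cs_of (ss j))]
  exact (h j).2.2 z (h0 z hz)

/-- local structure of weak solutions -/
theorem weyl_loc [CompleteSpace F] {U : Set ℂ} (hU : IsOpen U) {u G : ℂ → F}
    (hu : ContinuousOn u U) (hG : ContinuousOn G U) (h : Wk U u G) {z : ℂ} (hz : z ∈ U) :
    ∃ (η : ℂ → ℂ) (v : ℂ → F), ContDiff ℝ ∞ η ∧ HasCompactSupport η ∧ tsupport η ⊆ U ∧ η z = 1 ∧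
      AnalyticAt ℂ v z ∧ u =ᶠ[𝓝 z] fun x => v x + cT (fun y => η y • G y) x := by
  obtain ⟨ε, hε, hb⟩ := Metric.nhds_basis_closedBall.mem_iff.1 (hU.mem_nhds hz)
  obtain ⟨η, h1, h2, -, h4, h5⟩ := ex_cutC z (half_pos hε) (half_lt_self hε)
  have h1' : ContDiff ℝ 1 η := h1.of_le (by exact_mod_cast le_top)
  have hs : tsupport η ⊆ U := h5 ▸ hb
  refine ⟨η, cT fun y => db η y • u y, h1, h2, hs, h4 z (mem_closedBall_self (half_pos hε).le),
    ?_, ?_⟩
  · refine (cT_hol (cont_cut hU (db_cont h1') ((db_ts η).trans hs) hu) (cs_cut (db_cs h2) u)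
      isOpen_ball fun y hy => ?_).analyticAt (ball_mem_nhds z (half_pos hε))
    rw [db_one h4 hy, zero_smul]
  · filter_upwards [closedBall_mem_nhds z (half_pos hε)] with x hx
    rw [← rep hU hu hG h h1' h2 hs x, h4 x hx, one_smul]

theorem weyl : WEYL := by
  intro F _ _ _ _ _ U u G hU hu hG h
  refine ⟨fun h0 z hz => ?_, fun k hk hc => ?_⟩
  · obtain ⟨η, v, -, -, h3, -, h5, h6⟩ := weyl_loc hU hu hG h hz
    have e : (fun y => η y • G y) = fun _ => 0 := funext fun y => by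
      by_cases hy : y ∈ tsupport η
      · rw [h0 y (h3 hy), smul_zero]
      · rw [image_eq_zero_of_notMem_tsupport hy, zero_smul]
    refine (h5.differentiableAt.congr_of_eventuallyEq (h6.mono fun x hx => ?_)).differentiableWithinAt
    rw [hx, e]
    simp [cT]
  · have key : ∀ z ∈ U, ContDiffAt ℝ k u z ∧ db u z = G z := fun z hz => by
      obtain ⟨η, v, h1, h2, h3, h4, h5, h6⟩ := weyl_loc hU hu hG h hz
      have c : ContDiff ℝ k fun y => η y • G y :=
        cd_cut hU (h1.of_le (by exact_mod_cast le_top)) h3 hc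
      have c1 : ContDiff ℝ 1 fun y => η y • G y := c.of_le (by exact_mod_cast hk)
      have s := cs_cut h2 G
      refine ⟨((h5.contDiffAt.restrict_scalars ℝ).add (cT_cd c s).contDiffAt).congr_of_eventuallyEq
        h6, ?_⟩
      have e := (wb_congr h6 1).trans (wb_add (h5.differentiableAt.restrictScalars ℝ)
        ((cT_cd (n := 1) c1 s).differentiable (by norm_num) z) 1)
      have e2 := congrFun (db_cT c1 s) z
      rw [wb_hol h5.differentiableAt, zero_add] at e
      rw [h4, one_smul] at e2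
      exact e.trans e2
    exact ⟨fun z hz => (key z hz).1.contDiffWithinAt, fun z hz => (key z hz).2⟩

/-! ### limits of differentiable functions -/

/-- the real linear map with given Wirtinger components -/
def LL : (F × F) →L[ℝ] ℂ →L[ℝ] F :=
  ((ContinuousLinearMap.lsmul ℝ ℂ).flip.comp (ContinuousLinearMap.fst ℝ F F)) +
    (((ContinuousLinearMap.lsmul ℝ ℂ).comp (conjCLE : ℂ →L[ℝ] ℂ)).flip.comp
      (ContinuousLinearMap.snd ℝ F F))

theorem LL_apply (p q : F) (v : ℂ) : LL (p, q) v = v • p + conj v • q := rfl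

theorem fd_LL (f : ℂ → F) (z : ℂ) : fderiv ℝ f z = LL (dz f z, db f z) := by
  ext1 v
  have h1 := wd_smulv v f z 1
  have h2 := wb_smulv v f z 1
  rw [smul_eq_mul, mul_one] at h1 h2
  rw [LL_apply, fderiv_eq_wd, h1, h2]

theorem dz_of {f : ℂ → F} {z : ℂ} {p q : F} (h : HasFDerivAt f (LL (p, q)) z) : dz f z = p := by
  simp only [dz, wd, h.fderiv, LL_apply, smul_eq_mul, mul_one, map_one, conj_I]
  match_scalars
  · linear_combination (-2⁻¹ : ℂ) * I_mul_I
  · linear_combination (2⁻¹ : ℂ) * I_mul_I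

theorem db_of {f : ℂ → F} {z : ℂ} {p q : F} (h : HasFDerivAt f (LL (p, q)) z) : db f z = q := by
  simp only [db, wb, h.fderiv, LL_apply, smul_eq_mul, mul_one, map_one, conj_I]
  match_scalars
  · linear_combination (2⁻¹ : ℂ) * I_mul_I
  · linear_combination (-2⁻¹ : ℂ) * I_mul_I

/-- one more derivative from the Wirtinger derivatives -/
theorem cdo_succ {U : Set ℂ} (hU : IsOpen U) {f : ℂ → F} {n : ℕ∞} (hf : DifferentiableOn ℝ f U)
    (h1 : ContDiffOn ℝ n (dz f) U) (h2 : ContDiffOn ℝ n (db f) U) :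
    ContDiffOn ℝ ((n : WithTop ℕ∞) + 1) f U := by
  refine (contDiffOn_succ_iff_fderiv_of_isOpen hU).2 ⟨hf, fun h => absurd h (by simp), ?_⟩
  rw [show fderiv ℝ f = fun z => LL (dz f z, db f z) from funext (fd_LL f)]
  exact LL.contDiff.comp_contDiffOn (h1.prodMk h2)

theorem lim_fd {U : Set ℂ} (hU : IsOpen U) {f : ℕ → ℂ → F} {f0 p q : ℂ → F}
    (hf : ∀ j, DifferentiableOn ℝ (f j) U) (t0 : ∀ z ∈ U, Tendsto (fun j => f j z) atTop (𝓝 (f0 z)))
    (t1 : TendstoLocallyUniformlyOn (fun j => dz (f j)) p atTop U)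
    (t2 : TendstoLocallyUniformlyOn (fun j => db (f j)) q atTop U) {z : ℂ} (hz : z ∈ U) :
    HasFDerivAt f0 (LL (p z, q z)) z := by
  refine hasFDerivAt_of_tendstoLocallyUniformlyOn (l := atTop) (f := f)
    (f' := fun j z => LL (dz (f j) z, db (f j) z)) (g' := fun z => LL (p z, q z)) hU ?_
    (fun j x hx => ?_) t0 hz
  · exact LL.uniformContinuous.comp_tendstoLocallyUniformlyOn (t1.prodMk t2)
  · rw [← fd_LL]
    exact ((hf j x hx).differentiableAt (hU.mem_nhds hx)).hasFDerivAt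

/-- limits in `C¹` -/
theorem lim_c1 {U : Set ℂ} (hU : IsOpen U) {f : ℕ → ℂ → F} {f0 p q : ℂ → F}
    (hf : ∀ j, ContDiffOn ℝ 1 (f j) U) (t0 : ∀ z ∈ U, Tendsto (fun j => f j z) atTop (𝓝 (f0 z)))
    (t1 : TendstoLocallyUniformlyOn (fun j => dz (f j)) p atTop U)
    (t2 : TendstoLocallyUniformlyOn (fun j => db (f j)) q atTop U) :
    ContDiffOn ℝ 1 f0 U ∧ ∀ z ∈ U, dz f0 z = p z ∧ db f0 z = q z := by
  have h := fun z hz => lim_fd hU (fun j => (hf j).differentiableOn (by norm_num)) t0 t1 t2 (z := z) hz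
  have c1 : ContinuousOn p U := t1.continuousOn (Frequently.of_forall fun j => dz_contOn hU (hf j))
  have c2 : ContinuousOn q U := t2.continuousOn (Frequently.of_forall fun j => db_contOn hU (hf j))
  refine ⟨?_, fun z hz => ⟨dz_of (h z hz), db_of (h z hz)⟩⟩
  have := cdo_succ (n := 0) hU (fun z hz => (h z hz).differentiableAt.differentiableWithinAt)
    (contDiffOn_zero.2 (c1.congr fun z hz => dz_of (h z hz)))
    (contDiffOn_zero.2 (c2.congr fun z hz => db_of (h z hz)))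
  simpa using this

end Vale.Agent.P275CT
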